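import Vale.Agent.Lib.P050.Iter

/-!
Weighted cycle integrals of a symmetric kernel and the cycle form of Hölder's inequality:
for weights bounded by one, a weighted cycle integral of even length is at most the unweighted one.
-/

open MeasureTheory Function
open scoped Classical

noncomputable section

namespace Vale.Agent.Lib.P050

variable {Ω : Type*} [MeasurableSpace Ω] (μ : Measure Ω)

/-- Bounded symmetric measurable kernels. -/
structure Ker (U : Ω → Ω → ℝ) : Prop where
  meas : Measurable (uncurry U)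
  bdd : ∀ a b, |U a b| ≤ 1
  symm : ∀ a b, U a b = U b a

/-- Measurable weights bounded by one. -/
structure Wt (a : Ω → ℝ) : Prop where
  meas : Measurable a
  bdd : ∀ y, |a y| ≤ 1

/-- The constant weight one. -/
def one : Ω → ℝ := fun _ => 1

lemma wt_one : Wt (one : Ω → ℝ) := ⟨measurable_const, fun _ => by simp [one]⟩

/-- Path kernels with inner weights. -/
def K (U : Ω → Ω → ℝ) : List (Ω → ℝ) → Ω → Ω → ℝ
  | [], s, t => U s t
  | a :: L, s, t => ∫ y, U s y * a y * K U L y t ∂μ

/-- Cycle integrals. -/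
def Cyc (U : Ω → Ω → ℝ) : List (Ω → ℝ) → ℝ
  | [] => 0
  | a :: L => ∫ s, a s * K μ U L s s ∂μ

lemma meas₂ {X : Type*} [MeasurableSpace X] {F : Ω → Ω → ℝ} (h : Measurable (uncurry F))
    {f g : X → Ω} (hf : Measurable f) (hg : Measurable g) :
    Measurable (fun x => F (f x) (g x)) :=
  h.comp (hf.prodMk hg)

variable [IsProbabilityMeasure μ] {U : Ω → Ω → ℝ}

lemma K_meas (hU : Ker U) {L : List (Ω → ℝ)} (hL : ∀ a ∈ L, Wt a) :
    Measurable (uncurry (K μ U L)) := by
  induction L with
  | nil => exact hU.meas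
  | cons a L ih =>
    have hih := ih (fun b hb => hL b (List.mem_cons_of_mem _ hb))
    have ha := (hL a List.mem_cons_self).meas
    apply measurable_integral_of_uncurry
      (g := fun (p : Ω × Ω) y => U p.1 y * a y * K μ U L y p.2)
    refine Measurable.mul (Measurable.mul ?_ ?_) ?_
    · exact meas₂ hU.meas (measurable_fst.comp measurable_fst) measurable_snd
    · exact ha.comp measurable_snd
    · exact meas₂ hih measurable_snd (measurable_snd.comp measurable_fst)

lemma K_bdd (hU : Ker U) {L : List (Ω → ℝ)} (hL : ∀ a ∈ L, Wt a) (s t : Ω) : |K μ U L s t| ≤ 1 := by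
  induction L generalizing s t with
  | nil => exact hU.bdd s t
  | cons a L ih =>
    apply abs_integral_le
    intro y
    have h1 := hU.bdd s y
    have h2 := (hL a List.mem_cons_self).bdd y
    have h3 := ih (fun b hb => hL b (List.mem_cons_of_mem _ hb)) y t
    rw [abs_mul, abs_mul]
    calc |U s y| * |a y| * |K μ U L y t| ≤ 1 * 1 * 1 := by gcongr
      _ = 1 := by norm_num

section helpers

variable {μ}

/-- Bound for a product of three numbers of size at most one. -/
lemma abs_mul3_le {x y z : ℝ} (hx : |x| ≤ 1) (hy : |y| ≤ 1) (hz : |z| ≤ 1) : |x * y * z| ≤ 1 := by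
  rw [abs_mul, abs_mul]
  calc |x| * |y| * |z| ≤ 1 * 1 * 1 := by gcongr
    _ = 1 := by norm_num

lemma abs_mul2_le {x y : ℝ} (hx : |x| ≤ 1) (hy : |y| ≤ 1) : |x * y| ≤ 1 := by
  rw [abs_mul]
  calc |x| * |y| ≤ 1 * 1 := by gcongr
    _ = 1 := by norm_num

end helpers

lemma integrable_Ω {g : Ω → ℝ} (hm : Measurable g) {C : ℝ} (hb : ∀ y, |g y| ≤ C) :
    Integrable g μ := integrable_of_bdd hm hb

/-- The splitting formula for path kernels. -/
lemma K_split (hU : Ker U) {L1 L2 : List (Ω → ℝ)} {a : Ω → ℝ} (h1 : ∀ b ∈ L1, Wt b) (ha : Wt a)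
    (h2 : ∀ b ∈ L2, Wt b) (s t : Ω) :
    K μ U (L1 ++ a :: L2) s t = ∫ y, K μ U L1 s y * a y * K μ U L2 y t ∂μ := by
  induction L1 generalizing s with
  | nil => rfl
  | cons b L1 ih =>
    have hb : Wt b := h1 b List.mem_cons_self
    have h1' : ∀ c ∈ L1, Wt c := fun c hc => h1 c (List.mem_cons_of_mem _ hc)
    have hK1 := K_meas μ hU h1'
    have hK2 := K_meas μ hU h2
    have hbd1 := K_bdd μ hU h1'
    have hbd2 := K_bdd μ hU h2
    -- the left side
    have hL : K μ U (b :: L1 ++ a :: L2) s t
        = ∫ z, ∫ y, U s z * b z * (K μ U L1 z y * a y * K μ U L2 y t) ∂μ ∂μ := by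
      show (∫ z, U s z * b z * K μ U (L1 ++ a :: L2) z t ∂μ) = _
      congr 1
      funext z
      rw [ih h1' z, integral_const_mul]
    -- the right side
    have hR : ∫ y, K μ U (b :: L1) s y * a y * K μ U L2 y t ∂μ
        = ∫ y, ∫ z, U s z * b z * (K μ U L1 z y * a y * K μ U L2 y t) ∂μ ∂μ := by
      congr 1
      funext y
      show (∫ z, U s z * b z * K μ U L1 z y ∂μ) * a y * K μ U L2 y t = _
      rw [← integral_mul_const, ← integral_mul_const]
      congr 1
      funext z
      ring
    rw [hL, hR]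
    apply integral_integral_swap
      (f := fun z y => U s z * b z * (K μ U L1 z y * a y * K μ U L2 y t))
    apply integrable_of_bdd (C := 1)
    · refine Measurable.mul (Measurable.mul ?_ ?_) (Measurable.mul (Measurable.mul ?_ ?_) ?_)
      · exact meas₂ hU.meas measurable_const measurable_fst
      · exact hb.meas.comp measurable_fst
      · exact meas₂ hK1 measurable_fst measurable_snd
      · exact ha.meas.comp measurable_snd
      · exact meas₂ hK2 measurable_snd measurable_const
    · intro p
      exact abs_mul2_le (abs_mul2_le (hU.bdd _ _) (hb.bdd _))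
        (abs_mul3_le (hbd1 _ _) (ha.bdd _) (hbd2 _ _))

/-- Reversal of path kernels. -/
lemma K_rev (hU : Ker U) {L : List (Ω → ℝ)} (hL : ∀ a ∈ L, Wt a) (s t : Ω) :
    K μ U L s t = K μ U L.reverse t s := by
  induction L generalizing s t with
  | nil => exact hU.symm s t
  | cons a L ih =>
    have ha : Wt a := hL a List.mem_cons_self
    have hL' : ∀ c ∈ L, Wt c := fun c hc => hL c (List.mem_cons_of_mem _ hc)
    have hLr : ∀ c ∈ L.reverse, Wt c := fun c hc => hL' c (List.mem_reverse.mp hc)
    rw [List.reverse_cons, K_split μ hU hLr ha (L2 := []) (by simp)]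
    show (∫ y, U s y * a y * K μ U L y t ∂μ) = _
    congr 1
    funext y
    rw [ih hL' y t]
    show _ = K μ U L.reverse t y * a y * U y s
    rw [hU.symm y s]
    ring

lemma Cyc_bdd (hU : Ker U) {L : List (Ω → ℝ)} (hL : ∀ a ∈ L, Wt a) : |Cyc μ U L| ≤ 1 := by
  cases L with
  | nil => simp [Cyc]
  | cons a L =>
    apply abs_integral_le
    intro s
    exact abs_mul2_le ((hL a List.mem_cons_self).bdd s)
      (K_bdd μ hU (fun b hb => hL b (List.mem_cons_of_mem _ hb)) s s)

/-- One step of rotation. -/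
lemma Cyc_rot1 (hU : Ker U) {a : Ω → ℝ} {L : List (Ω → ℝ)} (ha : Wt a) (hL : ∀ b ∈ L, Wt b) :
    Cyc μ U (a :: L) = Cyc μ U (L ++ [a]) := by
  cases L with
  | nil => rfl
  | cons b L =>
    have hb : Wt b := hL b List.mem_cons_self
    have hL' : ∀ c ∈ L, Wt c := fun c hc => hL c (List.mem_cons_of_mem _ hc)
    have hK := K_meas μ hU hL'
    have hbd := K_bdd μ hU hL'
    have h1 : Cyc μ U (a :: b :: L)
        = ∫ s, ∫ y, a s * (U s y * b y * K μ U L y s) ∂μ ∂μ := by
      show (∫ s, a s * (∫ y, U s y * b y * K μ U L y s ∂μ) ∂μ) = _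
      congr 1
      funext s
      rw [integral_const_mul]
    have h2 : Cyc μ U (b :: L ++ [a])
        = ∫ y, ∫ s, a s * (U s y * b y * K μ U L y s) ∂μ ∂μ := by
      show (∫ y, b y * K μ U (L ++ [a]) y y ∂μ) = _
      congr 1
      funext y
      rw [K_split μ hU hL' ha (L2 := []) (by simp), ← integral_const_mul]
      congr 1
      funext s
      show b y * (K μ U L y s * a s * U s y) = _
      ring
    rw [h1, h2]
    apply integral_integral_swap
      (f := fun s y => a s * (U s y * b y * K μ U L y s))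
    apply integrable_of_bdd (C := 1)
    · refine Measurable.mul ?_ (Measurable.mul (Measurable.mul ?_ ?_) ?_)
      · exact ha.meas.comp measurable_fst
      · exact hU.meas
      · exact hb.meas.comp measurable_snd
      · exact meas₂ hK measurable_snd measurable_fst
    · intro p
      exact abs_mul2_le (ha.bdd _) (abs_mul3_le (hU.bdd _ _) (hb.bdd _) (hbd _ _))

/-- Rotation invariance of cycle integrals. -/
lemma Cyc_rot (hU : Ker U) {L1 L2 : List (Ω → ℝ)} (h1 : ∀ a ∈ L1, Wt a) (h2 : ∀ a ∈ L2, Wt a) :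
    Cyc μ U (L1 ++ L2) = Cyc μ U (L2 ++ L1) := by
  induction L1 generalizing L2 with
  | nil => simp
  | cons a L1 ih =>
    have ha : Wt a := h1 a List.mem_cons_self
    have h1' : ∀ c ∈ L1, Wt c := fun c hc => h1 c (List.mem_cons_of_mem _ hc)
    have h3 : ∀ c ∈ L1 ++ L2, Wt c := by
      intro c hc
      rcases List.mem_append.mp hc with h | h
      · exact h1' c h
      · exact h2 c h
    have h4 : ∀ c ∈ L2 ++ [a], Wt c := by
      intro c hc
      rcases List.mem_append.mp hc with h | h
      · exact h2 c h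
      · simp only [List.mem_singleton] at h
        exact h ▸ ha
    calc Cyc μ U (a :: L1 ++ L2) = Cyc μ U (a :: (L1 ++ L2)) := rfl
      _ = Cyc μ U ((L1 ++ L2) ++ [a]) := Cyc_rot1 μ hU ha h3
      _ = Cyc μ U (L1 ++ (L2 ++ [a])) := by rw [List.append_assoc]
      _ = Cyc μ U ((L2 ++ [a]) ++ L1) := ih h1' h4
      _ = Cyc μ U (L2 ++ a :: L1) := by simp

/-- The Cauchy-Schwarz inequality for bounded measurable functions. -/
lemma cs_real {X : Type*} [MeasurableSpace X] {ν : Measure X} [IsFiniteMeasure ν] {f g : X → ℝ}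
    (hf : Measurable f) (hg : Measurable g) {C D : ℝ} (hfb : ∀ x, |f x| ≤ C) (hgb : ∀ x, |g x| ≤ D) :
    (∫ x, f x * g x ∂ν) ^ 2 ≤ (∫ x, f x ^ 2 ∂ν) * (∫ x, g x ^ 2 ∂ν) := by
  have hint : ∀ {h : X → ℝ} {E : ℝ}, Measurable h → (∀ x, |h x| ≤ E) → Integrable h ν :=
    fun hm hb => integrable_of_bdd hm hb
  have hC0 : 0 ≤ C ∨ IsEmpty X := by
    by_cases hX : Nonempty X
    · obtain ⟨x⟩ := hX
      exact Or.inl ((abs_nonneg _).trans (hfb x))
    · exact Or.inr (not_nonempty_iff.mp hX)
  have hffb : ∀ x, |f x ^ 2| ≤ C * C := by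
    intro x
    rw [abs_pow, sq]
    exact mul_le_mul (hfb x) (hfb x) (abs_nonneg _) ((abs_nonneg _).trans (hfb x))
  have hggb : ∀ x, |g x ^ 2| ≤ D * D := by
    intro x
    rw [abs_pow, sq]
    exact mul_le_mul (hgb x) (hgb x) (abs_nonneg _) ((abs_nonneg _).trans (hgb x))
  have hfgb : ∀ x, |f x * g x| ≤ C * D := by
    intro x
    rw [abs_mul]
    exact mul_le_mul (hfb x) (hgb x) (abs_nonneg _) ((abs_nonneg _).trans (hfb x))
  have i1 : Integrable (fun x => f x ^ 2) ν := hint (hf.pow_const 2) hffb
  have i2 : Integrable (fun x => f x * g x) ν := hint (hf.mul hg) hfgb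
  have i3 : Integrable (fun x => g x ^ 2) ν := hint (hg.pow_const 2) hggb
  have hq : ∀ t : ℝ, 0 ≤ (∫ x, f x ^ 2 ∂ν) * (t * t) + (2 * ∫ x, f x * g x ∂ν) * t
      + ∫ x, g x ^ 2 ∂ν := by
    intro t
    have h0 : 0 ≤ ∫ x, (f x * t + g x) ^ 2 ∂ν := integral_nonneg (fun x => sq_nonneg _)
    have h1 : ∫ x, (f x * t + g x) ^ 2 ∂ν
        = (∫ x, f x ^ 2 ∂ν) * (t * t) + (2 * ∫ x, f x * g x ∂ν) * t + ∫ x, g x ^ 2 ∂ν := by
      have h2 : (fun x => (f x * t + g x) ^ 2)
          = fun x => f x ^ 2 * (t * t) + (2 * t) * (f x * g x) + g x ^ 2 := by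
        funext x
        ring
      have i4 : Integrable (fun x => f x ^ 2 * (t * t) + (2 * t) * (f x * g x)) ν :=
        (i1.mul_const _).add (i2.const_mul _)
      rw [h2, integral_add i4 i3,
        integral_add (i1.mul_const _) (i2.const_mul _), integral_mul_const, integral_const_mul]
      ring
    rwa [h1] at h0
  have hd := discrim_le_zero hq
  unfold discrim at hd
  nlinarith

/-- The doubled cycle. -/
def D (U : Ω → Ω → ℝ) (L : List (Ω → ℝ)) : ℝ := Cyc μ U (one :: L ++ one :: L.reverse)

lemma D_eq (hU : Ker U) {L : List (Ω → ℝ)} (hL : ∀ a ∈ L, Wt a) :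
    D μ U L = ∫ p : Ω × Ω, (K μ U L p.1 p.2) ^ 2 ∂(μ.prod μ) := by
  have hK := K_meas μ hU hL
  have hbd := K_bdd μ hU hL
  have hLr : ∀ c ∈ L.reverse, Wt c := fun c hc => hL c (List.mem_reverse.mp hc)
  rw [integral_prod]
  · unfold D
    show (∫ s, one s * K μ U (L ++ one :: L.reverse) s s ∂μ) = _
    congr 1
    funext s
    rw [K_split μ hU hL wt_one hLr]
    simp only [one, one_mul]
    congr 1
    funext t
    rw [← K_rev μ hU hL s t]
    ring
  · apply integrable_of_bdd (C := 1)
    · exact (meas₂ hK measurable_fst measurable_snd).pow_const 2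
    · intro p
      rw [abs_pow, sq]
      have := hbd p.1 p.2
      nlinarith [abs_nonneg (K μ U L p.1 p.2)]

lemma D_nonneg (hU : Ker U) {L : List (Ω → ℝ)} (hL : ∀ a ∈ L, Wt a) : 0 ≤ D μ U L := by
  rw [D_eq μ hU hL]
  exact integral_nonneg (fun p => sq_nonneg _)

/-- Reflection positivity in Cauchy-Schwarz form. -/
lemma Cyc_CS (hU : Ker U) {p q : Ω → ℝ} {L1 L2 : List (Ω → ℝ)} (hp : Wt p) (hq : Wt q)
    (h1 : ∀ a ∈ L1, Wt a) (h2 : ∀ a ∈ L2, Wt a) :
    (Cyc μ U (p :: L1 ++ q :: L2)) ^ 2 ≤ D μ U L1 * D μ U L2 := by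
  have hK1 := K_meas μ hU h1
  have hK2 := K_meas μ hU h2
  have hbd1 := K_bdd μ hU h1
  have hbd2 := K_bdd μ hU h2
  set f : Ω × Ω → ℝ := fun P => p P.1 * q P.2 * K μ U L1 P.1 P.2 with hf
  set g : Ω × Ω → ℝ := fun P => K μ U L2 P.2 P.1 with hg
  have hfm : Measurable f :=
    ((hp.meas.comp measurable_fst).mul (hq.meas.comp measurable_snd)).mul
      (meas₂ hK1 measurable_fst measurable_snd)
  have hgm : Measurable g := meas₂ hK2 measurable_snd measurable_fst
  have hfb : ∀ P, |f P| ≤ 1 := fun P => abs_mul3_le (hp.bdd _) (hq.bdd _) (hbd1 _ _)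
  have hgb : ∀ P, |g P| ≤ 1 := fun P => hbd2 _ _
  have hcyc : Cyc μ U (p :: L1 ++ q :: L2) = ∫ P, f P * g P ∂(μ.prod μ) := by
    rw [integral_prod]
    · show (∫ s, p s * K μ U (L1 ++ q :: L2) s s ∂μ) = _
      congr 1
      funext s
      rw [K_split μ hU h1 hq h2, ← integral_const_mul]
      congr 1
      funext t
      simp only [hf, hg]
      ring
    · apply integrable_of_bdd (C := 1) (hfm.mul hgm)
      exact fun P => abs_mul2_le (hfb P) (hgb P)
  have hcs := cs_real (ν := μ.prod μ) hfm hgm hfb hgb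
  rw [← hcyc] at hcs
  have hsq : ∀ {h : Ω × Ω → ℝ}, Measurable h → (∀ P, |h P| ≤ 1) →
      Integrable (fun P => h P ^ 2) (μ.prod μ) := by
    intro h hm hb
    apply integrable_of_bdd (C := 1) (hm.pow_const 2)
    intro P
    rw [abs_pow]
    have := hb P
    have h0 := abs_nonneg (h P)
    nlinarith
  have hk1m : Measurable (fun P : Ω × Ω => K μ U L1 P.1 P.2) :=
    meas₂ hK1 measurable_fst measurable_snd
  have hle1 : ∫ P, f P ^ 2 ∂(μ.prod μ) ≤ D μ U L1 := by
    rw [D_eq μ hU h1]
    apply integral_mono (hsq hfm hfb) (hsq hk1m (fun P => hbd1 _ _))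
    intro P
    simp only [hf]
    have h3 : (p P.1 * q P.2) ^ 2 ≤ 1 := by
      have := abs_mul2_le (hp.bdd P.1) (hq.bdd P.2)
      rw [← sq_abs]
      have h0 := abs_nonneg (p P.1 * q P.2)
      nlinarith
    rw [mul_pow]
    nlinarith [sq_nonneg (K μ U L1 P.1 P.2)]
  have heq2 : ∫ P, g P ^ 2 ∂(μ.prod μ) = D μ U L2 := by
    rw [D_eq μ hU h2]
    exact integral_prod_swap (fun P : Ω × Ω => K μ U L2 P.1 P.2 ^ 2)
  have hnn1 : 0 ≤ ∫ P, g P ^ 2 ∂(μ.prod μ) := integral_nonneg (fun P => sq_nonneg _)
  calc (Cyc μ U (p :: L1 ++ q :: L2)) ^ 2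
      ≤ (∫ P, f P ^ 2 ∂(μ.prod μ)) * ∫ P, g P ^ 2 ∂(μ.prod μ) := hcs
    _ ≤ D μ U L1 * ∫ P, g P ^ 2 ∂(μ.prod μ) := mul_le_mul_of_nonneg_right hle1 hnn1
    _ = _ := by rw [heq2]

/-- An elementary inequality for the doubling argument. -/
lemma doubling_num {M δ c y : ℝ} (hδ : 0 < δ) (hy : 0 ≤ y) (hc : M - δ ≤ |c|)
    (hM : 0 ≤ M) (hsq : c ^ 2 ≤ y * M) : M - 2 * δ ≤ y := by
  by_cases hm : M - δ ≤ 0
  · linarith
  · push_neg at hm
    have h1 : (M - δ) ^ 2 ≤ c ^ 2 := by
      rw [← sq_abs c]
      exact pow_le_pow_left₀ hm.le hc 2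
    have hMpos : 0 < M := by linarith
    have h2 : M * (M - 2 * δ) ≤ M * y := by nlinarith [sq_nonneg δ]
    exact le_of_mul_le_mul_left h2 hMpos

/-- Cycle form of Hölder's inequality. -/
theorem cyc_holder (hU : Ker U) {k : ℕ} (hk : 1 ≤ k) {L : List (Ω → ℝ)} (hL : L.length = 2 * k)
    (hW : ∀ a ∈ L, Wt a) : |Cyc μ U L| ≤ Cyc μ U (List.replicate (2 * k) one) := by
  set Val : Set ℝ := {x | ∃ L : List (Ω → ℝ), L.length = 2 * k ∧ (∀ a ∈ L, Wt a) ∧ x = |Cyc μ U L|}
    with hVal
  have hbddA : BddAbove Val := by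
    refine ⟨1, ?_⟩
    rintro x ⟨L, _, hw, rfl⟩
    exact Cyc_bdd μ hU hw
  have hne : Val.Nonempty := ⟨_, L, hL, hW, rfl⟩
  set M := sSup Val with hM
  have hle : ∀ L : List (Ω → ℝ), L.length = 2 * k → (∀ a ∈ L, Wt a) → |Cyc μ U L| ≤ M :=
    fun L h1 h2 => le_csSup hbddA ⟨L, h1, h2, rfl⟩
  have hM0 : 0 ≤ M := (abs_nonneg _).trans (hle L hL hW)
  have wt_rep : ∀ n, ∀ a ∈ List.replicate n (one : Ω → ℝ), Wt a := by
    intro n a ha
    rw [List.eq_of_mem_replicate ha]
    exact wt_one
  -- the general reflection step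
  have hrefl : ∀ {p q : Ω → ℝ} {L1 L2 : List (Ω → ℝ)}, Wt p → Wt q → (∀ a ∈ L1, Wt a) →
      (∀ a ∈ L2, Wt a) → L2.length + 1 = k →
      (Cyc μ U (p :: L1 ++ q :: L2)) ^ 2 ≤ D μ U L1 * M := by
    intro p q L1 L2 hp hq h1 h2 hlen
    refine (Cyc_CS μ hU hp hq h1 h2).trans ?_
    apply mul_le_mul_of_nonneg_left _ (D_nonneg μ hU h1)
    have hD2 : D μ U L2 ≤ |D μ U L2| := le_abs_self _
    refine hD2.trans (hle _ ?_ ?_)
    · simp
      omega
    · intro a ha
      simp only [List.cons_append, List.mem_cons, List.mem_append, List.mem_reverse] at ha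
      rcases ha with rfl | ha | rfl | ha
      · exact wt_one
      · exact h2 a ha
      · exact wt_one
      · exact h2 a ha
  -- the claim for prefixes of ones
  have hclaim : ∀ r, r ≤ k → ∀ δ, 0 < δ → ∃ L' : List (Ω → ℝ), L'.length + r = 2 * k ∧
      (∀ a ∈ L', Wt a) ∧ M - δ ≤ |Cyc μ U (List.replicate r one ++ L')| := by
    intro r
    induction r with
    | zero =>
      intro _ δ hδ
      obtain ⟨x, ⟨L', h1, h2, rfl⟩, hlt⟩ := exists_lt_of_lt_csSup hne (sub_lt_self M hδ)
      exact ⟨L', by simpa using h1, h2, by simpa using hlt.le⟩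
    | succ r ih =>
      intro hr δ hδ
      obtain ⟨L', hlen, hw, hbound⟩ := ih (by omega) (δ / 2) (by positivity)
      -- peel the last element
      rcases List.eq_nil_or_concat L' with rfl | ⟨B, p, hLB⟩
      · simp at hlen
        omega
      · rw [List.concat_eq_append] at hLB
        subst hLB
        have hBlen : B.length + 1 + r = 2 * k := by simpa using hlen
        have hwB : ∀ a ∈ B, Wt a := fun a ha => hw a (by simp [ha])
        have hp : Wt p := hw p (by simp)
        -- split `B`
        set A := B.take (k - 1 - r) with hA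
        have hAlen : A.length = k - 1 - r := by
          rw [hA, List.length_take]
          omega
        have hdrop : (B.drop (k - 1 - r)).length = k := by
          rw [List.length_drop]
          omega
        obtain ⟨q, L2, hqL2⟩ : ∃ q L2, B.drop (k - 1 - r) = q :: L2 := by
          cases hd : B.drop (k - 1 - r) with
          | nil =>
            rw [hd] at hdrop
            simp at hdrop
            omega
          | cons q L2 => exact ⟨q, L2, rfl⟩
        have hB : B = A ++ q :: L2 := by
          rw [hA, ← hqL2, List.take_append_drop]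
        have hL2len : L2.length + 1 = k := by
          rw [hqL2] at hdrop
          simpa using hdrop
        have hq : Wt q := hwB q (by rw [hB]; simp)
        have hwL2 : ∀ a ∈ L2, Wt a := fun a ha => hwB a (by rw [hB]; simp [ha])
        have hwA : ∀ a ∈ A, Wt a := fun a ha => hwB a (by rw [hB]; simp [ha])
        set L1 := List.replicate r (one : Ω → ℝ) ++ A with hL1
        have hwL1 : ∀ a ∈ L1, Wt a := by
          intro a ha
          rcases List.mem_append.mp ha with h | h
          · exact wt_rep r a h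
          · exact hwA a h
        -- rotate
        have hrot : Cyc μ U (List.replicate r one ++ (B ++ [p])) = Cyc μ U (p :: L1 ++ q :: L2) := by
          have h3 : List.replicate r one ++ (B ++ [p]) = (L1 ++ q :: L2) ++ [p] := by
            rw [hB, hL1]
            simp
          rw [h3]
          have hX : ∀ a ∈ L1 ++ q :: L2, Wt a := by
            intro a ha
            rcases List.mem_append.mp ha with h | h
            · exact hwL1 a h
            · rcases List.mem_cons.mp h with rfl | h
              · exact hq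
              · exact hwL2 a h
          exact (Cyc_rot1 μ hU hp hX).symm
        rw [hrot] at hbound
        have hdouble := doubling_num (by positivity) (D_nonneg μ hU hwL1) hbound hM0
          (hrefl hp hq hwL1 hwL2 hL2len)
        have hDform : D μ U L1 = Cyc μ U (List.replicate (r + 1) one ++ (A ++ one :: L1.reverse)) := by
          unfold D
          congr 1
          rw [hL1, List.replicate_succ]
          simp
        refine ⟨A ++ one :: L1.reverse, ?_, ?_, ?_⟩
        · simp only [List.length_append, List.length_cons, List.length_reverse, hL1,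
            List.length_replicate, hAlen]
          omega
        · intro a ha
          rcases List.mem_append.mp ha with h | h
          · exact hwA a h
          · rcases List.mem_cons.mp h with rfl | h
            · exact wt_one
            · exact hwL1 a (List.mem_reverse.mp h)
        · rw [← hDform]
          have h4 : M - δ = M - 2 * (δ / 2) := by ring
          rw [h4]
          exact hdouble.trans (le_abs_self _)
  -- the last step
  have hfinal : M ≤ Cyc μ U (List.replicate (2 * k) one) := by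
    apply le_of_forall_pos_sub_le
    intro δ hδ
    obtain ⟨L', hlen, hw, hbound⟩ := hclaim k le_rfl (δ / 2) (by positivity)
    rcases List.eq_nil_or_concat L' with rfl | ⟨B, p, hLB⟩
    · simp at hlen
      omega
    · rw [List.concat_eq_append] at hLB
      subst hLB
      have hBlen : B.length + 1 = k := by
        simp at hlen
        omega
      have hwB : ∀ a ∈ B, Wt a := fun a ha => hw a (by simp [ha])
      have hp : Wt p := hw p (by simp)
      set L1 := List.replicate (k - 1) (one : Ω → ℝ) with hL1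
      have hwL1 : ∀ a ∈ L1, Wt a := wt_rep _
      have hrep : List.replicate k (one : Ω → ℝ) = L1 ++ [one] := by
        rw [hL1, ← List.replicate_succ']
        have h6 : k - 1 + 1 = k := by omega
        rw [h6]
      have hrot : Cyc μ U (List.replicate k one ++ (B ++ [p])) = Cyc μ U (p :: L1 ++ one :: B) := by
        have h3 : List.replicate k one ++ (B ++ [p]) = (L1 ++ one :: B) ++ [p] := by
          rw [hrep]
          simp
        rw [h3]
        have hX : ∀ a ∈ L1 ++ one :: B, Wt a := by
          intro a ha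
          rcases List.mem_append.mp ha with h | h
          · exact hwL1 a h
          · rcases List.mem_cons.mp h with rfl | h
            · exact wt_one
            · exact hwB a h
        exact (Cyc_rot1 μ hU hp hX).symm
      rw [hrot] at hbound
      have hdouble := doubling_num (by positivity) (D_nonneg μ hU hwL1) hbound hM0
        (hrefl hp wt_one hwL1 hwB hBlen)
      have hDform : D μ U L1 = Cyc μ U (List.replicate (2 * k) one) := by
        unfold D
        congr 1
        rw [hL1, List.reverse_replicate]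
        have h5 : 2 * k = (k - 1 + 1) + (k - 1 + 1) := by omega
        rw [h5, List.replicate_add, List.replicate_succ]
      rw [← hDform]
      have h4 : M - δ = M - 2 * (δ / 2) := by ring
      rw [h4]
      exact hdouble
  exact (hle L hL hW).trans hfinal

end Vale.Agent.Lib.P050
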