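import Vale.Agent.Lib.P050.Dom
import Vale.Agent.Lib.P050.Cycle

/-!
The integrals attached to edge sets and the bounds needed for the abstract local theorem.
-/

open MeasureTheory Function Finset
open scoped Classical

noncomputable section

namespace Vale.Agent.Lib.P050

variable {V Ω : Type*} [MeasurableSpace Ω] (μ : Measure Ω) {U : Ω → Ω → ℝ}

/-- The value of the kernel on an edge. -/
def ev (hU : Ker U) (e : Sym2 V) (x : V → Ω) : ℝ :=
  Sym2.lift ⟨fun a b => U (x a) (x b), fun a b => hU.symm _ _⟩ e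

@[simp] lemma ev_mk (hU : Ker U) (a b : V) (x : V → Ω) : ev hU s(a, b) x = U (x a) (x b) := rfl

/-- The product of the kernel over an edge set. -/
def fP (hU : Ker U) (F : Finset (Sym2 V)) (x : V → Ω) : ℝ := ∏ e ∈ F, ev hU e x

lemma ev_abs_le (hU : Ker U) (e : Sym2 V) (x : V → Ω) : |ev hU e x| ≤ 1 := by
  induction e using Sym2.ind with
  | _ a b => exact hU.bdd _ _

lemma ev_bm (hU : Ker U) (e : Sym2 V) : BM (ev (V := V) hU e) := by
  refine ⟨?_, 1, fun x => ev_abs_le hU e x⟩
  induction e using Sym2.ind with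
  | _ a b => exact meas₂ hU.meas (measurable_pi_apply a) (measurable_pi_apply b)

lemma fP_abs_le (hU : Ker U) (F : Finset (Sym2 V)) (x : V → Ω) : |fP hU F x| ≤ 1 := by
  unfold fP
  rw [Finset.abs_prod]
  exact Finset.prod_le_one (fun _ _ => abs_nonneg _) (fun e _ => ev_abs_le hU e x)

lemma fP_bm (hU : Ker U) (F : Finset (Sym2 V)) : BM (fP (V := V) hU F) :=
  BM.prod F _ (fun e _ => ev_bm hU e)

lemma ev_indep (hU : Ker U) {e : Sym2 V} {v : V} (hv : v ∉ e) : Indep (ev hU e) v := by
  intro x y
  induction e using Sym2.ind with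
  | _ a b =>
    simp only [Sym2.mem_iff, not_or] at hv
    simp only [ev_mk]
    rw [update_of_ne (Ne.symm hv.1), update_of_ne (Ne.symm hv.2)]

lemma fP_indep (hU : Ker U) {F : Finset (Sym2 V)} {v : V} (hv : v ∉ verts F) :
    Indep (fP hU F) v := by
  intro x y
  unfold fP
  apply Finset.prod_congr rfl
  intro e he
  apply ev_indep hU
  intro hve
  exact hv (mem_verts.mpr ⟨e, he, hve⟩)

lemma fP_union (hU : Ker U) {F G : Finset (Sym2 V)} (h : Disjoint F G) (x : V → Ω) :
    fP hU (F ∪ G) x = fP hU F x * fP hU G x :=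
  Finset.prod_union h

lemma fP_insert (hU : Ker U) {F : Finset (Sym2 V)} {e : Sym2 V} (h : e ∉ F) (x : V → Ω) :
    fP hU (insert e F) x = ev hU e x * fP hU F x :=
  Finset.prod_insert h

/-- The average of the kernel at a point. -/
def dd (μ : Measure Ω) (U : Ω → Ω → ℝ) (y : Ω) : ℝ := ∫ z, U y z ∂μ

/-- The squared average. -/
def aa (μ : Measure Ω) (U : Ω → Ω → ℝ) : ℝ := ∫ y, dd μ U y ^ 2 ∂μ

section Prob

variable [IsProbabilityMeasure μ]

lemma dd_wt (hU : Ker U) : Wt (dd μ U) := by
  refine ⟨?_, fun y => abs_integral_le (fun z => hU.bdd y z)⟩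
  exact measurable_integral_of_uncurry (g := U) hU.meas

omit [IsProbabilityMeasure μ] in
lemma aa_nonneg : 0 ≤ aa μ U := integral_nonneg (fun _ => sq_nonneg _)

variable [Fintype V]

/-- The total integral attached to an edge set. -/
def T (hU : Ker U) (F : Finset (Sym2 V)) : ℝ := total μ (fP hU F)

lemma T_abs_le (hU : Ker U) (F : Finset (Sym2 V)) : |T μ hU F| ≤ 1 :=
  total_abs_le μ (fP_abs_le hU F)

lemma T_empty (hU : Ker U) : T (V := V) μ hU ∅ = 1 := by
  unfold T
  have : fP (V := V) hU ∅ = fun _ => 1 := by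
    funext x
    simp [fP]
  rw [this, total_const]

lemma T_mul (hU : Ker U) {F G : Finset (Sym2 V)} (h : Disjoint (verts F) (verts G)) :
    T μ hU (F ∪ G) = T μ hU F * T μ hU G := by
  have hedges : Disjoint F G := disjoint_edges_of_disjoint_verts h
  unfold T
  have h1 : fP hU (F ∪ G) = fun x => fP hU F x * fP hU G x := by
    funext x
    exact fP_union hU hedges x
  rw [h1]
  apply total_mul_of_indep μ (fP_bm hU F) (fP_bm hU G) (verts F)
  · intro v hv
    exact fP_indep hU hv
  · intro v hv
    exact fP_indep hU (Finset.disjoint_left.mp h hv)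

/-- Integrating out a vertex which only appears in one factor. -/
lemma leaf_out (hU : Ker U) {u w : V} (huw : u ≠ w) {h : (V → Ω) → ℝ} (hh : BM h) (hi : Indep h u) :
    total μ (fun x => U (x u) (x w) * h x) = total μ (fun x => dd μ U (x w) * h x) := by
  have hBM : BM (fun x : V → Ω => U (x u) (x w) * h x) :=
    BM.mul ⟨meas₂ hU.meas (measurable_pi_apply u) (measurable_pi_apply w), 1,
      fun x => hU.bdd _ _⟩ hh
  rw [← total_iter μ hBM [u]]
  congr 1
  funext x
  simp only [iter_cons, iter_nil]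
  have h1 : ∀ y, U (update x u y u) (update x u y w) * h (update x u y) = U y (x w) * h x := by
    intro y
    rw [update_self, update_of_ne (Ne.symm huw), hi x y]
  simp only [h1]
  rw [integral_mul_const]
  have h2 : ∫ a, U a (x w) ∂μ = dd μ U (x w) := by
    unfold dd
    congr 1
    funext a
    exact hU.symm _ _
  rw [h2]

lemma T_single (hU : Ker U) (hzero : ∫ y, ∫ z, U y z ∂μ ∂μ = 0) {e : Sym2 V} (he : ¬ e.IsDiag) :
    T μ hU ({e} : Finset (Sym2 V)) = 0 := by
  induction e using Sym2.ind with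
  | _ a b =>
    have hab : a ≠ b := by simpa using he
    unfold T
    have h1 : fP hU ({s(a, b)} : Finset (Sym2 V)) = fun x => U (x a) (x b) * (fun _ => 1) x := by
      funext x
      simp [fP]
    rw [h1, leaf_out μ hU hab (BM.const 1) (fun _ _ => rfl)]
    simp only [mul_one]
    rw [total_coord μ (dd_wt μ hU).meas (dd_wt μ hU).bdd b]
    exact hzero

/-- The formula for two leaves on distinct edges. -/
lemma T_two_leaves (hU : Ker U) {a a' b b' : V} {G : Finset (Sym2 V)}
    (ha : a ≠ a') (hb : b ≠ b') (hab' : b ≠ a') (hba' : a ≠ b') (hab : a ≠ b)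
    (haG : a ∉ verts G) (hbG : b ∉ verts G) :
    total μ (fun x => U (x a) (x a') * (U (x b) (x b') * fP hU G x))
      = total μ (fun x => dd μ U (x a') * (dd μ U (x b') * fP hU G x)) := by
  have hGbm := fP_bm hU G
  have hab1 : BM (fun x : V → Ω => U (x b) (x b')) :=
    ⟨meas₂ hU.meas (measurable_pi_apply b) (measurable_pi_apply b'), 1, fun x => hU.bdd _ _⟩
  have hd' : BM (fun x : V → Ω => dd μ U (x a')) :=
    ⟨(dd_wt μ hU).meas.comp (measurable_pi_apply a'), 1, fun x => (dd_wt μ hU).bdd _⟩
  have hd2 : BM (fun x : V → Ω => dd μ U (x b')) :=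
    ⟨(dd_wt μ hU).meas.comp (measurable_pi_apply b'), 1, fun x => (dd_wt μ hU).bdd _⟩
  have step1 : total μ (fun x => U (x a) (x a') * (U (x b) (x b') * fP hU G x))
      = total μ (fun x => dd μ U (x a') * (U (x b) (x b') * fP hU G x)) := by
    apply leaf_out μ hU ha (hab1.mul hGbm)
    intro x y
    have := fP_indep hU haG x y
    simp only [this]
    rw [update_of_ne (Ne.symm hab), update_of_ne hba'.symm]
  have hrew : (fun x => dd μ U (x a') * (U (x b) (x b') * fP hU G x))
      = fun x => U (x b) (x b') * (dd μ U (x a') * fP hU G x) := by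
    funext x
    ring
  rw [step1, hrew]
  have step2 := leaf_out μ hU hb (h := fun x => dd μ U (x a') * fP hU G x) (hd'.mul hGbm) (by
    intro x y
    have := fP_indep hU hbG x y
    simp only [this]
    rw [update_of_ne hab'.symm])
  rw [step2]
  congr 1
  funext x
  ring

lemma sq_half_le {t : ℝ} (h : |t| ≤ 1) : |t ^ 2 / 2| ≤ 1 := by
  rw [abs_of_nonneg (by positivity)]
  have h1 : t ^ 2 ≤ 1 := by
    rw [← sq_abs]
    nlinarith [abs_nonneg t]
  linarith

/-- Bound from two leaves. -/
lemma T_two_leaves_bound (hU : Ker U) (a' b' : V) (G : Finset (Sym2 V)) :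
    |total μ (fun x => dd μ U (x a') * (dd μ U (x b') * fP hU G x))| ≤ aa μ U := by
  have hGbm := fP_bm hU G
  have hw := dd_wt μ hU
  have hd' : BM (fun x : V → Ω => dd μ U (x a')) :=
    ⟨hw.meas.comp (measurable_pi_apply a'), 1, fun x => hw.bdd _⟩
  have hd2 : BM (fun x : V → Ω => dd μ U (x b')) :=
    ⟨hw.meas.comp (measurable_pi_apply b'), 1, fun x => hw.bdd _⟩
  have hBM := hd'.mul (hd2.mul hGbm)
  have hsq : ∀ c : V, BM (fun x : V → Ω => dd μ U (x c) ^ 2 / 2) := by
    intro c
    refine ⟨((hw.meas.comp (measurable_pi_apply c)).pow_const 2).div_const 2, 1, fun x => ?_⟩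
    exact sq_half_le (hw.bdd (x c))
  have htot : ∀ c : V, total μ (fun x : V → Ω => dd μ U (x c) ^ 2 / 2) = aa μ U / 2 := by
    intro c
    have hm : Measurable (fun y => dd μ U y ^ 2 / 2) := (hw.meas.pow_const 2).div_const 2
    have := total_coord (V := V) μ hm (C := 1) (fun y => sq_half_le (hw.bdd y)) c
    rw [this]
    unfold aa
    rw [integral_div]
  calc |total μ (fun x => dd μ U (x a') * (dd μ U (x b') * fP hU G x))|
      ≤ total μ (fun z => |dd μ U (z a') * (dd μ U (z b') * fP hU G z)|) := abs_total_le μ hBM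
    _ ≤ total μ (fun x => dd μ U (x a') ^ 2 / 2 + dd μ U (x b') ^ 2 / 2) := by
        apply total_mono μ hBM.abs ((hsq a').add (hsq b'))
        intro x
        have h1 := fP_abs_le hU G x
        rw [abs_mul, abs_mul]
        have h2 : |dd μ U (x b')| * |fP hU G x| ≤ |dd μ U (x b')| := by
          have := abs_nonneg (dd μ U (x b'))
          nlinarith
        have h3 : |dd μ U (x a')| * (|dd μ U (x b')| * |fP hU G x|)
            ≤ |dd μ U (x a')| * |dd μ U (x b')| :=
          mul_le_mul_of_nonneg_left h2 (abs_nonneg _)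
        have h4 : |dd μ U (x a')| * |dd μ U (x b')|
            ≤ dd μ U (x a') ^ 2 / 2 + dd μ U (x b') ^ 2 / 2 := by
          have h5 := sq_nonneg (|dd μ U (x a')| - |dd μ U (x b')|)
          have h6 := sq_abs (dd μ U (x a'))
          have h7 := sq_abs (dd μ U (x b'))
          nlinarith
        exact h3.trans h4
    _ = aa μ U := by
        rw [total_add μ (hsq a') (hsq b'), htot, htot]
        ring

/-- Paths with vertex weights. -/
def pathFn (U : Ω → Ω → ℝ) (φ : V → Ω → ℝ) : Ω → List V → Ω → (V → Ω) → ℝ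
  | s, [], t, _ => U s t
  | s, v :: l, t, z => U s (z v) * φ v (z v) * pathFn U φ (z v) l t z

omit [Fintype V] [IsProbabilityMeasure μ] in
lemma iter_pathFn (φ : V → Ω → ℝ) {l : List V} (hl : l.Nodup) (s t : Ω) (x : V → Ω) :
    iter μ l (pathFn U φ s l t) x = K μ U (l.map φ) s t := by
  induction l generalizing s t x with
  | nil => rfl
  | cons v l ih =>
    have hv : v ∉ l := (List.nodup_cons.mp hl).1
    have hl' : l.Nodup := (List.nodup_cons.mp hl).2
    rw [iter_cons]
    show _ = ∫ y, U s y * φ v y * K μ U (l.map φ) y t ∂μ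
    congr 1
    funext y
    have h1 : iter μ l (pathFn U φ s (v :: l) t) (update x v y)
        = iter μ l (fun z => (U s y * φ v y) * pathFn U φ y l t z) (update x v y) := by
      apply iter_congr_off
      intro z hz
      have hzv : z v = y := by
        rw [hz v hv, update_self]
      show U s (z v) * φ v (z v) * pathFn U φ (z v) l t z = _
      rw [hzv]
    rw [h1, iter_const_mul, ih hl']

omit [Fintype V] [IsProbabilityMeasure μ] in
/-- Edge products along a path in terms of `pathFn`. -/
lemma prod_pathFn (hU : Ker U) (φ : V → Ω → ℝ) {a : V} {l : List V} (h : (a :: l).Nodup)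
    (z : V → Ω) (t : Ω) :
    (∏ e ∈ pathEdges (a :: l), ev hU e z) * U (z (endpt a l)) t
        * (l.map (fun v => φ v (z v))).prod = pathFn U φ (z a) l t z := by
  induction l generalizing a with
  | nil => simp [pathEdges, endpt, pathFn]
  | cons b l ih =>
    have ha : a ∉ b :: l := (List.nodup_cons.mp h).1
    have hnm : s(a, b) ∉ pathEdges (b :: l) := by
      intro hm
      exact ha (verts_pathEdges_sub hm (by simp))
    have hpe : pathEdges (a :: b :: l) = insert s(a, b) (pathEdges (b :: l)) := rfl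
    have hen : endpt a (b :: l) = endpt b l := rfl
    have hih := ih (List.nodup_cons.mp h).2
    rw [hpe, Finset.prod_insert hnm, hen]
    show _ = U (z a) (z b) * φ b (z b) * pathFn U φ (z b) l t z
    rw [← hih, List.map_cons, List.prod_cons, ev_mk]
    ring

omit [Fintype V] [IsProbabilityMeasure μ] in
/-- The cycle formula. -/
lemma iter_cycle (hU : Ker U) (φ : V → Ω → ℝ) {c : V} {l : List V} (h : (c :: l).Nodup)
    (hl : 2 ≤ l.length) (x : V → Ω) :
    iter μ (c :: l) (fun z => (∏ v ∈ (c :: l).toFinset, φ v (z v)) * fP hU (cycEdges c l) z) x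
      = Cyc μ U (φ c :: l.map φ) := by
  have hc : c ∉ l := (List.nodup_cons.mp h).1
  have hl' : l.Nodup := (List.nodup_cons.mp h).2
  rw [iter_cons]
  show _ = ∫ y, φ c y * K μ U (l.map φ) y y ∂μ
  congr 1
  funext y
  have h1 : iter μ l (fun z => (∏ v ∈ (c :: l).toFinset, φ v (z v)) * fP hU (cycEdges c l) z)
      (update x c y)
      = iter μ l (fun z => φ c y * pathFn U φ y l y z) (update x c y) := by
    apply iter_congr_off
    intro z hz
    have hzc : z c = y := by
      rw [hz c hc, update_self]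
    have hfin : (c :: l).toFinset = insert c l.toFinset := List.toFinset_cons
    have hcn : c ∉ l.toFinset := by simpa using hc
    rw [hfin, Finset.prod_insert hcn, List.prod_toFinset _ hl']
    unfold fP cycEdges
    rw [Finset.prod_insert (closing_notMem h hl), ev_mk, hzc]
    have := prod_pathFn hU φ h z y
    rw [hzc] at this
    rw [← this]
    ring
  rw [h1, iter_const_mul, iter_pathFn μ φ hl']

/-- Functions which split over the vertices of a list, for frozen outer coordinates. -/
def Splits (cyc : Finset V) (Ψ : (V → Ω) → ℝ) : Prop :=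
  ∀ x : V → Ω, ∃ (G : ℝ) (φ : V → Ω → ℝ), |G| ≤ 1 ∧ (∀ v, Wt (φ v)) ∧
    ∀ z : V → Ω, (∀ u, u ∉ cyc → z u = x u) → Ψ z = G * ∏ v ∈ cyc, φ v (z v)

omit [IsProbabilityMeasure μ] [Fintype V] in
lemma splits_one (cyc : Finset V) : Splits cyc (fun _ : V → Ω => 1) := by
  intro x
  refine ⟨1, fun _ => one, by simp, fun _ => wt_one, fun z _ => ?_⟩
  simp [one]

omit [IsProbabilityMeasure μ] [Fintype V] in
lemma splits_mul {cyc : Finset V} {Ψ₁ Ψ₂ : (V → Ω) → ℝ} (h1 : Splits cyc Ψ₁) (h2 : Splits cyc Ψ₂) :
    Splits cyc (fun z => Ψ₁ z * Ψ₂ z) := by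
  intro x
  obtain ⟨G₁, φ₁, hG₁, hφ₁, h₁⟩ := h1 x
  obtain ⟨G₂, φ₂, hG₂, hφ₂, h₂⟩ := h2 x
  refine ⟨G₁ * G₂, fun v y => φ₁ v y * φ₂ v y, abs_mul2_le hG₁ hG₂, ?_, ?_⟩
  · intro v
    exact ⟨(hφ₁ v).meas.mul (hφ₂ v).meas, fun y => abs_mul2_le ((hφ₁ v).bdd y) ((hφ₂ v).bdd y)⟩
  · intro z hz
    show Ψ₁ z * Ψ₂ z = _
    rw [h₁ z hz, h₂ z hz, Finset.prod_mul_distrib]
    ring

omit [IsProbabilityMeasure μ] [Fintype V] in
/-- A single weight at one vertex. -/
lemma prod_single_weight {cyc : Finset V} {w : V} (hw : w ∈ cyc) (g : Ω → ℝ) (z : V → Ω) :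
    ∏ v ∈ cyc, (update (fun _ => one) w g : V → Ω → ℝ) v (z v) = g (z w) := by
  rw [Finset.prod_eq_single w]
  · simp
  · intro v _ hv
    simp [update_of_ne hv, one]
  · intro h
    exact absurd hw h

omit [IsProbabilityMeasure μ] [Fintype V] in
lemma wt_single_weight {w : V} {g : Ω → ℝ} (hg : Wt g) (v : V) :
    Wt ((update (fun _ => one) w g : V → Ω → ℝ) v) := by
  by_cases hv : v = w
  · subst hv
    simpa using hg
  · rw [update_of_ne hv]
    exact wt_one

omit [IsProbabilityMeasure μ] [Fintype V] in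
lemma splits_coord (cyc : Finset V) {g : Ω → ℝ} (hg : Wt g) (w : V) :
    Splits cyc (fun z : V → Ω => g (z w)) := by
  intro x
  by_cases hw : w ∈ cyc
  · refine ⟨1, update (fun _ => one) w g, by simp, wt_single_weight hg, fun z _ => ?_⟩
    rw [prod_single_weight hw, one_mul]
  · refine ⟨g (x w), fun _ => one, hg.bdd _, fun _ => wt_one, fun z hz => ?_⟩
    simp [one, hz w hw]

omit [IsProbabilityMeasure μ] [Fintype V] in
lemma splits_edge_aux (hU : Ker U) (cyc : Finset V) (a : V) {b : V} (hb : b ∉ cyc) :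
    Splits cyc (fun z : V → Ω => ev hU s(a, b) z) := by
  intro x
  by_cases ha : a ∈ cyc
  · have hWt : Wt (fun y => U y (x b)) :=
      ⟨meas₂ hU.meas measurable_id measurable_const, fun y => hU.bdd _ _⟩
    refine ⟨1, update (fun _ => one) a (fun y => U y (x b)), by simp, wt_single_weight hWt,
      fun z hz => ?_⟩
    rw [prod_single_weight ha, one_mul]
    show U (z a) (z b) = _
    rw [hz b hb]
  · refine ⟨U (x a) (x b), fun _ => one, hU.bdd _ _, fun _ => wt_one, fun z hz => ?_⟩
    show U (z a) (z b) = _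
    simp [one, hz a ha, hz b hb]

omit [IsProbabilityMeasure μ] [Fintype V] in
lemma splits_edge (hU : Ker U) (cyc : Finset V) {e : Sym2 V} (he : ∃ v ∈ e, v ∉ cyc) :
    Splits cyc (ev hU e : (V → Ω) → ℝ) := by
  induction e using Sym2.ind with
  | _ a b =>
    obtain ⟨v, hv, hvc⟩ := he
    simp only [Sym2.mem_iff] at hv
    rcases hv with rfl | rfl
    · rw [Sym2.eq_swap]
      exact splits_edge_aux hU cyc b hvc
    · exact splits_edge_aux hU cyc a hvc

omit [IsProbabilityMeasure μ] [Fintype V] in
lemma splits_fP (hU : Ker U) (cyc : Finset V) {F : Finset (Sym2 V)} (hF : ∀ e ∈ F, ∃ v ∈ e, v ∉ cyc) :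
    Splits cyc (fP hU F : (V → Ω) → ℝ) := by
  induction F using Finset.induction_on with
  | empty =>
    have : fP hU (∅ : Finset (Sym2 V)) = fun _ : V → Ω => (1:ℝ) := by
      funext x
      simp [fP]
    rw [this]
    exact splits_one cyc
  | @insert e F he ih =>
    have h1 : fP hU (insert e F) = fun z : V → Ω => ev hU e z * fP hU F z := by
      funext z
      exact fP_insert hU he z
    rw [h1]
    exact splits_mul (splits_edge hU cyc (hF e (Finset.mem_insert_self e F)))
      (ih (fun e' he' => hF e' (Finset.mem_insert_of_mem he')))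

/-- The unweighted cycle integrals. -/
def bb (μ : Measure Ω) (U : Ω → Ω → ℝ) (n : ℕ) : ℝ := |Cyc μ U (List.replicate n one)|

omit [Fintype V] [IsProbabilityMeasure μ] in
lemma bb_nonneg (n : ℕ) : 0 ≤ bb μ U n := abs_nonneg _

lemma cyc_even_nonneg (hU : Ker U) {k : ℕ} (hk : 1 ≤ k) :
    0 ≤ Cyc μ U (List.replicate (2 * k) one) := by
  have h := cyc_holder μ hU hk (L := List.replicate (2 * k) one) (by simp)
    (fun a ha => by
      rw [List.eq_of_mem_replicate ha]
      exact wt_one)
  exact (abs_nonneg _).trans h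

/-- The main cycle estimate. -/
lemma cycle_bound (hU : Ker U) {c : V} {l : List V} (h : (c :: l).Nodup) (hl : 2 ≤ l.length)
    {k : ℕ} (hk : l.length + 1 = 2 * k) {Ψ : (V → Ω) → ℝ} (hΨ : Splits (c :: l).toFinset Ψ)
    (hΨbm : BM Ψ) :
    |total μ (fun z => Ψ z * fP hU (cycEdges c l) z)|
      ≤ Cyc μ U (List.replicate (2 * k) one) := by
  have hBM : BM (fun z => Ψ z * fP hU (cycEdges c l) z) := hΨbm.mul (fP_bm hU _)
  rw [← total_iter μ hBM (c :: l)]
  apply total_abs_le
  intro x
  obtain ⟨G, φ, hG, hφ, hsplit⟩ := hΨ x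
  have h1 : iter μ (c :: l) (fun z => Ψ z * fP hU (cycEdges c l) z) x
      = iter μ (c :: l) (fun z => G * ((∏ v ∈ (c :: l).toFinset, φ v (z v))
          * fP hU (cycEdges c l) z)) x := by
    apply iter_congr_off
    intro z hz
    rw [hsplit z (fun u hu => hz u (by simpa using hu))]
    ring
  rw [h1, iter_const_mul, iter_cycle μ hU φ h hl, abs_mul]
  have hk1 : 1 ≤ k := by omega
  have hhold := cyc_holder μ hU hk1 (L := φ c :: l.map φ) (by simpa using hk)
    (fun a ha => by
      simp only [List.mem_cons, List.mem_map] at ha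
      rcases ha with rfl | ⟨v, _, rfl⟩
      · exact hφ c
      · exact hφ v)
  have hnn : 0 ≤ Cyc μ U (List.replicate (2 * k) one) := (abs_nonneg _).trans hhold
  calc |G| * |Cyc μ U (φ c :: l.map φ)| ≤ 1 * Cyc μ U (List.replicate (2 * k) one) :=
        mul_le_mul hG hhold (abs_nonneg _) (by norm_num)
    _ = _ := one_mul _

/-- The exact value on a cycle. -/
lemma T_cycle (hU : Ker U) {c : V} {l : List V} (h : (c :: l).Nodup) (hl : 2 ≤ l.length) :
    T μ hU (cycEdges c l) = Cyc μ U (List.replicate (l.length + 1) one) := by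
  unfold T
  have hBM := fP_bm (V := V) hU (cycEdges c l)
  rw [← total_iter μ hBM (c :: l)]
  have h1 : iter μ (c :: l) (fP hU (cycEdges c l))
      = fun _ => Cyc μ U (List.replicate (l.length + 1) one) := by
    funext x
    have h2 := iter_cycle μ hU (fun _ => one) h hl x
    have h3 : (fun z : V → Ω => (∏ v ∈ (c :: l).toFinset, (fun _ : V => (one : Ω → ℝ)) v (z v))
        * fP hU (cycEdges c l) z) = fP hU (cycEdges c l) := by
      funext z
      simp [one]
    rw [h3] at h2
    rw [h2]
    congr 1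
    simp [List.replicate_succ]
  rw [h1, total_const]

/-- The estimate for a shortest even subset: the rest of the edges and any weights which split
over the cycle do not increase the integral. -/
lemma T_shortest_bound (hU : Ker U) {C F : Finset (Sym2 V)} (hloop : ∀ e ∈ F, ¬ e.IsDiag)
    (hC : IsShortest C F) (hev : Even C.card) {Ψ : (V → Ω) → ℝ}
    (hΨ : Splits (verts C) Ψ) (hΨbm : BM Ψ) :
    |total μ (fun z => Ψ z * fP hU F z)| ≤ bb μ U C.card := by
  obtain ⟨c, l, hnd, hl, hCeq⟩ := shortest_is_cycle hloop hC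
  have hcard : C.card = l.length + 1 := by
    rw [← hCeq, card_cycEdges hnd hl]
    rfl
  obtain ⟨k, hk⟩ := hev
  have hk' : l.length + 1 = 2 * k := by omega
  have hvert : verts C = (c :: l).toFinset := by
    ext v
    rw [← hCeq, verts_cycEdges hnd hl, List.mem_toFinset]
  -- edges off the cycle have an endpoint off the cycle
  have hout : ∀ e ∈ F \ C, ∃ v ∈ e, v ∉ verts C := by
    intro e he
    rw [Finset.mem_sdiff] at he
    by_contra hcon
    push_neg at hcon
    exact shortest_no_chord hloop hC he.1 he.2 hcon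
  have hsplit : Splits (verts C) (fun z : V → Ω => Ψ z * fP hU (F \ C) z) :=
    splits_mul hΨ (splits_fP hU _ hout)
  have hfact : (fun z => Ψ z * fP hU F z)
      = fun z => (Ψ z * fP hU (F \ C) z) * fP hU (cycEdges c l) z := by
    funext z
    have h1 : F = (F \ C) ∪ C := (Finset.sdiff_union_of_subset hC.1).symm
    rw [hCeq]
    conv_lhs => rw [h1]
    rw [fP_union hU Finset.sdiff_disjoint]
    ring
  rw [hfact]
  rw [hvert] at hsplit
  have hmain := cycle_bound μ hU hnd hl hk' hsplit (hΨbm.mul (fP_bm hU _))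
  have hk1 : 1 ≤ k := by omega
  have h2 : 2 * k = C.card := by omega
  rw [h2] at hmain
  exact hmain.trans (le_abs_self _)

end Prob

end Vale.Agent.Lib.P050
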