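import Vale.Agent.Lib.P050.Weights

/-!
Passage from iterated integrals to the product measure, and the local theorem for kernels.
-/

open MeasureTheory Function Finset
open scoped Classical ENNReal

noncomputable section

namespace Vale.Agent.Lib.P050

variable {V Ω : Type*} [MeasurableSpace Ω] (μ : Measure Ω) [IsProbabilityMeasure μ]

lemma iter_nonneg {f : (V → Ω) → ℝ} (hnn : ∀ x, 0 ≤ f x) (l : List V) (x : V → Ω) :
    0 ≤ iter μ l f x := by
  induction l generalizing x with
  | nil => exact hnn x
  | cons v l ih => exact integral_nonneg (fun y => ih _)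

variable [Fintype V]

/-- Marginals of a nonnegative bounded function are iterated integrals. -/
lemma lmarginal_eq_iter {f : (V → Ω) → ℝ} (hf : BM f) (hnn : ∀ x, 0 ≤ f x) {l : List V}
    (hl : l.Nodup) (x : V → Ω) :
    lmarginal (fun _ : V => μ) l.toFinset (fun z => ENNReal.ofReal (f z)) x
      = ENNReal.ofReal (iter μ l f x) := by
  induction l generalizing x with
  | nil => simp
  | cons v l ih =>
    have hv : v ∉ l.toFinset := by simpa using (List.nodup_cons.mp hl).1
    have hl' : l.Nodup := (List.nodup_cons.mp hl).2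
    rw [List.toFinset_cons, lmarginal_insert _ (hf.meas.ennreal_ofReal) hv]
    simp only [ih hl']
    rw [iter_cons, ofReal_integral_eq_lintegral_ofReal]
    · exact (hf.iter μ l).integrable_update μ x v
    · exact Filter.Eventually.of_forall (fun y => iter_nonneg μ hnn l _)

/-- The integral against the product measure of a nonnegative bounded function. -/
lemma integral_pi_eq_total {f : (V → Ω) → ℝ} (hf : BM f) (hnn : ∀ x, 0 ≤ f x) :
    ∫ x, f x ∂(Measure.pi (fun _ : V => μ)) = total μ f := by
  let x0 : V → Ω := fun _ => Classical.choice (nonempty_of_isProbabilityMeasure μ)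
  rw [integral_eq_lintegral_of_nonneg_ae (Filter.Eventually.of_forall hnn)
    hf.meas.aestronglyMeasurable]
  rw [lintegral_eq_lmarginal_univ x0]
  have h1 : (Finset.univ : Finset V) = (allV V).toFinset := by
    ext v
    simp [mem_allV]
  rw [h1, lmarginal_eq_iter μ hf hnn allV_nodup x0, iter_all_eq μ hf x0]
  exact ENNReal.toReal_ofReal (by
    rw [← iter_all_eq μ hf x0]
    exact iter_nonneg μ hnn _ _)

/-- The total integral of a function of two different coordinates. -/
lemma total_pair {g : Ω → Ω → ℝ} (hg : Measurable (uncurry g)) {C : ℝ} (hC : ∀ a b, |g a b| ≤ C)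
    {u v : V} (huv : u ≠ v) : total μ (fun x => g (x u) (x v)) = ∫ a, ∫ b, g a b ∂μ ∂μ := by
  have hBM : BM (fun x : V → Ω => g (x u) (x v)) :=
    ⟨meas₂ hg (measurable_pi_apply u) (measurable_pi_apply v), C, fun x => hC _ _⟩
  rw [← total_iter μ hBM [u, v]]
  have : iter μ [u, v] (fun x : V → Ω => g (x u) (x v)) = fun _ => ∫ a, ∫ b, g a b ∂μ ∂μ := by
    funext x
    simp only [iter_cons, iter_nil]
    congr 1
    funext a
    congr 1
    funext b
    rw [update_self, update_of_ne huv, update_self]
  rw [this, total_const]

omit [MeasurableSpace Ω] [IsProbabilityMeasure μ] in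
/-- Even edge sets of a graph with a proper two-colouring have an even number of edges. -/
lemma even_card_of_colouring {E X : Finset (Sym2 V)} (c : V → Bool)
    (hc : ∀ a b, s(a, b) ∈ E → c a ≠ c b) (hX : X ⊆ E) (hev : IsEvenSet X) : Even X.card := by
  set A : Finset V := Finset.univ.filter (fun v => c v = false) with hA
  have hcount : ∑ v ∈ A, (X.filter (fun e => v ∈ e)).card
      = ∑ e ∈ X, (A.filter (fun v => v ∈ e)).card :=
    Finset.sum_card_bipartiteAbove_eq_sum_card_bipartiteBelow (fun v e => v ∈ e)
  have hone : ∀ e ∈ X, (A.filter (fun v => v ∈ e)).card = 1 := by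
    intro e he
    induction e using Sym2.ind with
    | _ a b =>
      have hab := hc a b (hX he)
      rw [Finset.card_eq_one]
      by_cases hca : c a = false
      · refine ⟨a, ?_⟩
        ext v
        simp only [Finset.mem_filter, hA, Finset.mem_univ, true_and, Sym2.mem_iff,
          Finset.mem_singleton]
        constructor
        · rintro ⟨hv, rfl | rfl⟩
          · rfl
          · exact absurd (hca.trans hv.symm) hab
        · rintro rfl
          exact ⟨hca, Or.inl rfl⟩
      · have hcb : c b = false := by
          cases hb : c b with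
          | false => rfl
          | true =>
            cases ha : c a with
            | false => exact absurd ha hca
            | true => exact absurd (ha.trans hb.symm) hab
        refine ⟨b, ?_⟩
        ext v
        simp only [Finset.mem_filter, hA, Finset.mem_univ, true_and, Sym2.mem_iff,
          Finset.mem_singleton]
        constructor
        · rintro ⟨hv, rfl | rfl⟩
          · exact absurd hv hca
          · rfl
        · rintro rfl
          exact ⟨hcb, Or.inr rfl⟩
  have hcard : X.card = ∑ v ∈ A, deg X v := by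
    unfold deg
    rw [hcount, Finset.sum_congr rfl hone]
    simp
  rw [hcard]
  exact Finset.even_sum _ (fun v _ => hev v)

/-- The local Sidorenko inequality with a bound depending on the maximum degree only. -/
theorem local_sidorenko [DecidableEq V] (H : SimpleGraph V) [DecidableRel H.Adj]
    (hH : H.Colorable 2) (Δ : ℕ) (hΔ : 1 ≤ Δ) (hdeg : ∀ v, H.degree v ≤ Δ)
    (W : Ω → Ω → ℝ) (hW : Measurable (uncurry W)) (hsym : ∀ a b, W a b = W b a)
    (hint : ∫ p : Ω × Ω, W p.1 p.2 ∂(μ.prod μ) = 1)
    (hclose : ∀ᵐ p : Ω × Ω ∂(μ.prod μ), |W p.1 p.2 - 1| ≤ 1 / (60 * (Δ : ℝ))) :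
    1 ≤ ∫ x : V → Ω, ∏ e ∈ H.edgeFinset,
        Sym2.lift ⟨fun a b => W (x a) (x b), fun a b => hsym _ _⟩ e ∂(Measure.pi fun _ => μ) := by
  have hΔr : (1:ℝ) ≤ Δ := by exact_mod_cast hΔ
  set ε : ℝ := 1 / (60 * (Δ : ℝ)) with hε
  have hε0 : 0 < ε := by positivity
  have hε1 : ε ≤ 1 := by
    rw [hε, div_le_one (by positivity)]
    linarith
  -- the graph side
  set E := H.edgeFinset with hE
  have hloop : ∀ e ∈ E, ¬ e.IsDiag := by
    intro e he
    exact H.not_isDiag_of_mem_edgeSet (SimpleGraph.mem_edgeFinset.mp he)
  have hdeg' : ∀ v, deg E v ≤ Δ := by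
    intro v
    refine le_trans (le_of_eq ?_) (hdeg v)
    rw [← SimpleGraph.card_incidenceFinset_eq_degree, SimpleGraph.incidenceFinset_eq_filter]
    unfold deg
    congr 1
    ext e
    simp [hE]
  obtain ⟨col⟩ := hH
  have heven : ∀ X, X ⊆ E → IsEvenSet X → Even X.card := by
    apply fun X hX hev => even_card_of_colouring (fun v => decide (col v = 0)) ?_ hX hev
    intro a b hab h
    have hadj : H.Adj a b := by simpa [hE] using hab
    have hne := col.valid hadj
    have h1 : col a = 0 ↔ col b = 0 := by simpa using h
    apply hne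
    have two : ∀ i : Fin 2, i = 0 ∨ i = 1 := by decide
    rcases two (col a) with ha | ha <;> rcases two (col b) with hb | hb
    · rw [ha, hb]
    · exact absurd (h1.mp ha) (by rw [hb]; decide)
    · exact absurd (h1.mpr hb) (by rw [ha]; decide)
    · rw [ha, hb]
  -- truncation
  set W' : Ω → Ω → ℝ := fun a b => if |W a b - 1| ≤ ε then W a b else 1 with hW'
  have hgoodm : MeasurableSet {p : Ω × Ω | |W p.1 p.2 - 1| ≤ ε} :=
    measurableSet_le ((hW.sub measurable_const).abs) measurable_const
  have hW'm : Measurable (uncurry W') := Measurable.ite hgoodm hW measurable_const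
  have hW'bd : ∀ a b, |W' a b - 1| ≤ ε := by
    intro a b
    simp only [hW']
    split_ifs with h
    · exact h
    · simpa using hε0.le
  have hW'sym : ∀ a b, W' a b = W' b a := by
    intro a b
    simp only [hW', hsym a b]
  have hW'nn : ∀ a b, 0 ≤ W' a b := by
    intro a b
    have := (abs_le.mp (hW'bd a b)).1
    linarith
  have hae : ∀ᵐ p : Ω × Ω ∂(μ.prod μ), W p.1 p.2 = W' p.1 p.2 := by
    filter_upwards [hclose] with p hp
    simp only [hW']
    rw [if_pos hp]
  have hW'int : ∫ p : Ω × Ω, W' p.1 p.2 ∂(μ.prod μ) = 1 := by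
    rw [← hint]
    exact integral_congr_ae (hae.mono (fun p hp => hp.symm))
  -- the normalised kernel
  set U : Ω → Ω → ℝ := fun a b => (W' a b - 1) / ε with hUdef
  have hU : Ker U := by
    refine ⟨(hW'm.sub measurable_const).div_const _, ?_, ?_⟩
    · intro a b
      simp only [hUdef]
      rw [abs_div, abs_of_pos hε0, div_le_one hε0]
      exact hW'bd a b
    · intro a b
      simp only [hUdef, hW'sym a b]
  have hW'U : ∀ a b, 1 + ε * U a b = W' a b := by
    intro a b
    simp only [hUdef]
    field_simp
    ring
  have hW'bdd : ∀ a b, |W' a b| ≤ 2 := by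
    intro a b
    have h1 := abs_le.mp (hW'bd a b)
    rw [abs_le]
    constructor <;> linarith [h1.1, h1.2]
  have hzero : ∫ y, ∫ z, U y z ∂μ ∂μ = 0 := by
    have hUint : Integrable (fun p : Ω × Ω => U p.1 p.2) (μ.prod μ) :=
      integrable_of_bdd (C := 1) (meas₂ hU.meas measurable_fst measurable_snd)
        (fun p => hU.bdd _ _)
    rw [← integral_prod (fun p : Ω × Ω => U p.1 p.2) hUint]
    have hW'i : Integrable (fun p : Ω × Ω => W' p.1 p.2) (μ.prod μ) :=
      integrable_of_bdd (C := 2) (meas₂ hW'm measurable_fst measurable_snd)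
        (fun p => hW'bdd _ _)
    simp only [hUdef]
    rw [integral_div, integral_sub hW'i (integrable_const _), hW'int]
    simp
  have hmain := main_U μ hU hzero hloop heven hΔ hdeg'
  rw [← hε] at hmain
  -- identify the integrands
  set f' : (V → Ω) → ℝ := fun x => ∏ e ∈ E, Sym2.lift
      ⟨fun a b => W' (x a) (x b), fun a b => hW'sym _ _⟩ e with hf'
  have hf'eq : (fun x => ∏ e ∈ E, (1 + ε * ev hU e x)) = f' := by
    funext x
    apply Finset.prod_congr rfl
    intro e _
    induction e using Sym2.ind with
    | _ a b =>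
      simp only [ev_mk, Sym2.lift_mk]
      exact hW'U _ _
  rw [hf'eq] at hmain
  have hfact : ∀ e : Sym2 V, BM (fun x : V → Ω => Sym2.lift
      ⟨fun a b => W' (x a) (x b), fun a b => hW'sym _ _⟩ e) := by
    intro e
    induction e using Sym2.ind with
    | _ a b =>
      simp only [Sym2.lift_mk]
      exact ⟨meas₂ hW'm (measurable_pi_apply a) (measurable_pi_apply b), 2, fun x => hW'bdd _ _⟩
  have hf'bm : BM f' := BM.prod E _ (fun e _ => hfact e)
  have hf'nn : ∀ x, 0 ≤ f' x := by
    intro x
    apply Finset.prod_nonneg
    intro e _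
    induction e using Sym2.ind with
    | _ a b =>
      simp only [Sym2.lift_mk]
      exact hW'nn _ _
  rw [← integral_pi_eq_total μ hf'bm hf'nn] at hmain
  -- a.e. equality of the integrands
  have hedge : ∀ e ∈ E, ∀ᵐ x : V → Ω ∂(Measure.pi fun _ => μ),
      Sym2.lift ⟨fun a b => W (x a) (x b), fun a b => hsym _ _⟩ e
        = Sym2.lift ⟨fun a b => W' (x a) (x b), fun a b => hW'sym _ _⟩ e := by
    intro e he
    induction e using Sym2.ind with
    | _ u v =>
      have huv : u ≠ v := by
        have := hloop _ he
        simpa using this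
      set bad : Ω → Ω → ℝ := fun a b => if |W a b - 1| ≤ ε then 0 else 1 with hbad
      have hbadm : Measurable (uncurry bad) :=
        Measurable.ite hgoodm measurable_const measurable_const
      have hbadb : ∀ a b, |bad a b| ≤ 1 := by
        intro a b
        simp only [hbad]
        split_ifs <;> simp
      have hbadnn : ∀ a b, 0 ≤ bad a b := by
        intro a b
        simp only [hbad]
        split_ifs <;> simp
      have hf : BM (fun x : V → Ω => bad (x u) (x v)) :=
        ⟨meas₂ hbadm (measurable_pi_apply u) (measurable_pi_apply v), 1, fun x => hbadb _ _⟩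
      have hzero' : ∫ x, bad (x u) (x v) ∂(Measure.pi fun _ : V => μ) = 0 := by
        rw [integral_pi_eq_total μ hf (fun x => hbadnn _ _), total_pair μ hbadm hbadb huv]
        have hbadi : Integrable (fun p : Ω × Ω => bad p.1 p.2) (μ.prod μ) :=
          integrable_of_bdd (C := 1) (meas₂ hbadm measurable_fst measurable_snd)
            (fun p => hbadb _ _)
        rw [← integral_prod (fun p : Ω × Ω => bad p.1 p.2) hbadi]
        apply integral_eq_zero_of_ae
        filter_upwards [hclose] with p hp
        simp only [hbad, Pi.zero_apply]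
        rw [if_pos hp]
      have hzeroae := (integral_eq_zero_iff_of_nonneg (fun x => hbadnn _ _)
        (integrable_of_bdd (C := 1) hf.meas (fun x => hbadb _ _))).mp hzero'
      filter_upwards [hzeroae] with x hx
      simp only [Sym2.lift_mk]
      have hgood : |W (x u) (x v) - 1| ≤ ε := by
        by_contra hn
        have : bad (x u) (x v) = 1 := by
          simp only [hbad]
          rw [if_neg hn]
        have h0 : bad (x u) (x v) = 0 := hx
        rw [this] at h0
        exact one_ne_zero h0
      simp only [hW']
      rw [if_pos hgood]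
  have hall : ∀ᵐ x : V → Ω ∂(Measure.pi fun _ => μ),
      ∀ e ∈ E, Sym2.lift ⟨fun a b => W (x a) (x b), fun a b => hsym _ _⟩ e
        = Sym2.lift ⟨fun a b => W' (x a) (x b), fun a b => hW'sym _ _⟩ e :=
    (Filter.eventually_all_finset E).mpr hedge
  have hcongr : ∫ x : V → Ω, ∏ e ∈ E, Sym2.lift
        ⟨fun a b => W (x a) (x b), fun a b => hsym _ _⟩ e ∂(Measure.pi fun _ => μ)
      = ∫ x, f' x ∂(Measure.pi fun _ => μ) := by
    apply integral_congr_ae
    filter_upwards [hall] with x hx
    exact Finset.prod_congr rfl hx
  rw [hcongr]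
  exact hmain

end Vale.Agent.Lib.P050
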