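import Mathlib

/-!
Polymer combinatorics for a local form of Sidorenko's inequality.
Edge sets are finsets of `Sym2 V`.
-/

open Finset
open scoped Classical

noncomputable section

namespace Vale.Agent.Lib.P050

variable {V : Type*}

/-- Two edges touch when they share a vertex. -/
def Touch (e f : Sym2 V) : Prop := ∃ v, v ∈ e ∧ v ∈ f

lemma Touch.symm {e f : Sym2 V} (h : Touch e f) : Touch f e := by
  obtain ⟨v, h1, h2⟩ := h
  exact ⟨v, h2, h1⟩

/-- The vertices met by an edge set. -/
def verts (F : Finset (Sym2 V)) : Finset V := F.biUnion Sym2.toFinset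

lemma mem_verts {F : Finset (Sym2 V)} {v : V} : v ∈ verts F ↔ ∃ e ∈ F, v ∈ e := by
  simp [verts, Sym2.mem_toFinset]

lemma card_verts_le (F : Finset (Sym2 V)) : (verts F).card ≤ 2 * F.card := by
  unfold verts
  have h : ∀ e ∈ F, (Sym2.toFinset e).card ≤ 2 := by
    intro e _
    induction e using Sym2.ind with
    | _ a b =>
      rw [Sym2.toFinset_mk_eq]
      exact Finset.card_le_two
  calc (F.biUnion Sym2.toFinset).card ≤ F.card * 2 := Finset.card_biUnion_le_card_mul _ _ _ h
    _ = 2 * F.card := by ring

/-- Connected edge sets, phrased through touching edges. -/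
def Conn (F : Finset (Sym2 V)) : Prop :=
  F.Nonempty ∧ ∀ A, A ⊆ F → A.Nonempty → A ≠ F → ∃ e ∈ A, ∃ e' ∈ F, e' ∉ A ∧ Touch e e'

/-- Connected subsets of `E`. -/
def polys (E : Finset (Sym2 V)) : Finset (Finset (Sym2 V)) := E.powerset.filter Conn

lemma mem_polys {E F : Finset (Sym2 V)} : F ∈ polys E ↔ F ⊆ E ∧ Conn F := by
  simp [polys]

/-- The edge boundary of `A` inside `E`. -/
def bd (E A : Finset (Sym2 V)) : Finset (Sym2 V) :=
  E.filter (fun e => e ∉ A ∧ ∃ e' ∈ A, Touch e' e)

/-- The edges of `E` touching `e`, other than `e`. -/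
def nbrs (E : Finset (Sym2 V)) (e : Sym2 V) : Finset (Sym2 V) :=
  E.filter (fun f => f ≠ e ∧ Touch e f)

lemma card_bd_le (E A : Finset (Sym2 V)) (D : ℕ) (hD : ∀ e ∈ A, (nbrs E e).card ≤ D) :
    (bd E A).card ≤ A.card * D := by
  have hsub : bd E A ⊆ A.biUnion (nbrs E) := by
    intro e he
    simp only [bd, mem_filter] at he
    obtain ⟨heE, heA, e', he', ht⟩ := he
    simp only [mem_biUnion, nbrs, mem_filter]
    refine ⟨e', he', heE, ?_, ht⟩
    rintro rfl
    exact heA he'
  exact (card_le_card hsub).trans (Finset.card_biUnion_le_card_mul _ _ _ hD)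

/-- The enumeration bound for connected edge sets: a weighted count of connected supersets of a
seed `A` which avoid `Y`. -/
lemma xi_bound (E : Finset (Sym2 V)) (θ τ : ℝ) (D : ℕ) (hθ : 0 ≤ θ) (hτ : 0 ≤ τ)
    (hθτ : θ * (1 + τ) ^ D ≤ τ)
    (hD : ∀ e ∈ E, (nbrs E e).card ≤ D) :
    ∀ (n : ℕ) (A Y : Finset (Sym2 V)), A.Nonempty → (E \ (A ∪ Y)).card = n →
      ∑ F ∈ (polys E).filter (fun F => A ⊆ F ∧ Disjoint F Y), θ ^ (F \ A).card
        ≤ (1 + τ) ^ (bd E A \ Y).card := by
  intro n
  induction n using Nat.strong_induction_on with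
  | _ n ih =>
    intro A Y hA hn
    by_cases hemp : bd E A \ Y = ∅
    · -- only `A` itself can occur
      have hsub : (polys E).filter (fun F => A ⊆ F ∧ Disjoint F Y) ⊆ {A} := by
        intro F hF
        simp only [mem_filter, mem_polys] at hF
        obtain ⟨⟨hFE, hconn⟩, hAF, hdisj⟩ := hF
        by_contra hne
        have hne' : A ≠ F := by
          intro h
          apply hne
          simp [h]
        obtain ⟨e, heA, e', he'F, he'A, ht⟩ := hconn.2 A hAF hA hne'
        have : e' ∈ bd E A \ Y := by
          simp only [mem_sdiff, bd, mem_filter]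
          refine ⟨⟨hFE he'F, he'A, e, heA, ht⟩, ?_⟩
          exact Finset.disjoint_left.mp hdisj he'F
        rw [hemp] at this
        simp at this
      calc ∑ F ∈ (polys E).filter (fun F => A ⊆ F ∧ Disjoint F Y), θ ^ (F \ A).card
          ≤ ∑ F ∈ ({A} : Finset (Finset (Sym2 V))), θ ^ (F \ A).card := by
            apply Finset.sum_le_sum_of_subset_of_nonneg hsub
            intro i _ _
            positivity
        _ = 1 := by simp
        _ ≤ (1 + τ) ^ (bd E A \ Y).card := by
            apply one_le_pow₀
            linarith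
    · -- pick a boundary edge `y` and branch on it
      obtain ⟨y, hy⟩ := Finset.nonempty_iff_ne_empty.mpr hemp
      have hy' := hy
      simp only [mem_sdiff, bd, mem_filter] at hy'
      obtain ⟨⟨hyE, hyA, e0, he0, ht0⟩, hyY⟩ := hy'
      set b := (bd E A \ Y).card with hb
      have hbpos : 1 ≤ b := Finset.card_pos.mpr ⟨y, hy⟩
      -- sizes of the two subproblems
      have hmem : y ∈ E \ (A ∪ Y) := by
        simp [hyE, hyA, hyY]
      have hn1 : (E \ (A ∪ insert y Y)).card < n := by
        rw [← hn]
        apply Finset.card_lt_card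
        refine ⟨?_, ?_⟩
        · intro x hx
          simp only [mem_sdiff, mem_union, mem_insert, not_or] at hx ⊢
          tauto
        · intro h
          have := h hmem
          simp at this
      have hn2 : (E \ (insert y A ∪ Y)).card < n := by
        rw [← hn]
        apply Finset.card_lt_card
        refine ⟨?_, ?_⟩
        · intro x hx
          simp only [mem_sdiff, mem_union, mem_insert, not_or] at hx ⊢
          tauto
        · intro h
          have := h hmem
          simp at this
      have hIH1 := ih _ hn1 A (insert y Y) hA rfl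
      have hIH2 := ih _ hn2 (insert y A) Y (by simp) rfl
      -- boundary cardinalities
      have hc1 : (bd E A \ insert y Y).card = b - 1 := by
        have : bd E A \ insert y Y = (bd E A \ Y).erase y := by
          ext x
          simp only [mem_sdiff, mem_insert, mem_erase, not_or]
          tauto
        rw [this, Finset.card_erase_of_mem hy]
      have hc2 : (bd E (insert y A) \ Y).card ≤ (b - 1) + D := by
        have hsub : bd E (insert y A) \ Y ⊆ ((bd E A \ Y).erase y) ∪ nbrs E y := by
          intro x hx
          simp only [mem_sdiff, bd, mem_filter, mem_insert, not_or] at hx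
          obtain ⟨⟨hxE, ⟨hxy, hxA⟩, e1, he1, ht1⟩, hxY⟩ := hx
          simp only [mem_union, mem_erase, mem_sdiff, bd, mem_filter, nbrs]
          rcases he1 with rfl | he1
          · right
            exact ⟨hxE, hxy, ht1⟩
          · left
            exact ⟨hxy, ⟨hxE, hxA, e1, he1, ht1⟩, hxY⟩
        calc (bd E (insert y A) \ Y).card
            ≤ (((bd E A \ Y).erase y) ∪ nbrs E y).card := card_le_card hsub
          _ ≤ ((bd E A \ Y).erase y).card + (nbrs E y).card := card_union_le _ _
          _ ≤ (b - 1) + D := by
              rw [Finset.card_erase_of_mem hy]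
              exact Nat.add_le_add_left (hD y hyE) _
      -- split the sum
      set S := (polys E).filter (fun F => A ⊆ F ∧ Disjoint F Y) with hS
      have hsplit := Finset.sum_filter_add_sum_filter_not S (fun F => y ∈ F)
        (fun F => θ ^ (F \ A).card)
      have h1 : ∑ F ∈ S.filter (fun F => ¬ y ∈ F), θ ^ (F \ A).card
          ≤ ∑ F ∈ (polys E).filter (fun F => A ⊆ F ∧ Disjoint F (insert y Y)),
              θ ^ (F \ A).card := by
        apply Finset.sum_le_sum_of_subset_of_nonneg
        · intro F hF
          simp only [hS, mem_filter] at hF ⊢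
          obtain ⟨⟨hp, hAF, hd⟩, hyF⟩ := hF
          refine ⟨hp, hAF, ?_⟩
          rw [Finset.disjoint_insert_right]
          exact ⟨hyF, hd⟩
        · intro i _ _
          positivity
      have h2 : ∑ F ∈ S.filter (fun F => y ∈ F), θ ^ (F \ A).card
          ≤ θ * ∑ F ∈ (polys E).filter (fun F => insert y A ⊆ F ∧ Disjoint F Y),
              θ ^ (F \ insert y A).card := by
        rw [Finset.mul_sum]
        have hterm : ∀ F ∈ S.filter (fun F => y ∈ F),
            θ ^ (F \ A).card = θ * θ ^ (F \ insert y A).card := by
          intro F hF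
          simp only [mem_filter] at hF
          have hyF := hF.2
          have : (F \ A).card = (F \ insert y A).card + 1 := by
            have he : F \ A = insert y (F \ insert y A) := by
              ext x
              simp only [mem_sdiff, mem_insert, not_or]
              constructor
              · rintro ⟨hx, hxA⟩
                by_cases hxy : x = y
                · left; exact hxy
                · right; exact ⟨hx, hxy, hxA⟩
              · rintro (rfl | ⟨hx, _, hxA⟩)
                · exact ⟨hyF, hyA⟩
                · exact ⟨hx, hxA⟩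
            rw [he, Finset.card_insert_of_notMem (by simp)]
          rw [this, pow_succ]
          ring
        rw [Finset.sum_congr rfl hterm]
        apply Finset.sum_le_sum_of_subset_of_nonneg
        · intro F hF
          simp only [hS, mem_filter] at hF ⊢
          obtain ⟨⟨hp, hAF, hd⟩, hyF⟩ := hF
          refine ⟨hp, ?_, hd⟩
          exact Finset.insert_subset hyF hAF
        · intro i _ _
          positivity
      -- combine
      have h1τ : (0:ℝ) ≤ 1 + τ := by linarith
      have hfinal : (1 + τ) ^ (b - 1) + θ * (1 + τ) ^ ((b - 1) + D) ≤ (1 + τ) ^ b := by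
        have hb' : b = (b - 1) + 1 := by omega
        calc (1 + τ) ^ (b - 1) + θ * (1 + τ) ^ ((b - 1) + D)
            = (1 + τ) ^ (b - 1) * (1 + θ * (1 + τ) ^ D) := by
              rw [pow_add]; ring
          _ ≤ (1 + τ) ^ (b - 1) * (1 + τ) := by
              apply mul_le_mul_of_nonneg_left _ (by positivity)
              linarith
          _ = (1 + τ) ^ b := by
              conv_rhs => rw [hb']
              rw [pow_succ]
      calc ∑ F ∈ S, θ ^ (F \ A).card
          = ∑ F ∈ S.filter (fun F => y ∈ F), θ ^ (F \ A).card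
            + ∑ F ∈ S.filter (fun F => ¬ y ∈ F), θ ^ (F \ A).card := hsplit.symm
        _ ≤ θ * (1 + τ) ^ ((b - 1) + D) + (1 + τ) ^ (b - 1) := by
            apply add_le_add
            · refine h2.trans ?_
              apply mul_le_mul_of_nonneg_left _ hθ
              refine hIH2.trans ?_
              exact pow_le_pow_right₀ (by linarith) hc2
            · refine h1.trans ?_
              rw [hc1] at hIH1
              exact hIH1
        _ ≤ (1 + τ) ^ b := by linarith

/-- Specialisation of the enumeration bound: all connected supersets of `A`. -/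
lemma sum_polys_superset (E A : Finset (Sym2 V)) (D : ℕ) (hDpos : 1 ≤ D)
    (hD : ∀ e ∈ E, (nbrs E e).card ≤ D) (hA : A.Nonempty) (hAE : A ⊆ E) :
    ∑ F ∈ (polys E).filter (fun F => A ⊆ F), (1 / (3 * (D : ℝ))) ^ (F \ A).card
      ≤ 3 ^ A.card := by
  have hDr : (0:ℝ) < D := by exact_mod_cast hDpos
  set θ : ℝ := 1 / (3 * (D : ℝ)) with hθ
  set τ : ℝ := 1 / (D : ℝ) with hτ
  have hθ0 : 0 ≤ θ := by positivity
  have hτ0 : 0 ≤ τ := by positivity
  have h3 : (1 + τ) ^ D ≤ 3 := by
    have h1 : 1 + τ ≤ Real.exp τ := by
      have := Real.add_one_le_exp τ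
      linarith
    have h2 : (1 + τ) ^ D ≤ (Real.exp τ) ^ D := pow_le_pow_left₀ (by linarith) h1 _
    have h4 : (Real.exp τ) ^ D = Real.exp 1 := by
      rw [← Real.exp_nat_mul]
      congr 1
      rw [hτ]
      field_simp
    rw [h4] at h2
    exact h2.trans Real.exp_one_lt_three.le
  have hθτ : θ * (1 + τ) ^ D ≤ τ := by
    calc θ * (1 + τ) ^ D ≤ θ * 3 := mul_le_mul_of_nonneg_left h3 hθ0
      _ = τ := by rw [hθ, hτ]; field_simp
  have hxi := xi_bound E θ τ D hθ0 hτ0 hθτ hD _ A ∅ hA rfl
  have hsimp : (polys E).filter (fun F => A ⊆ F ∧ Disjoint F ∅)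
      = (polys E).filter (fun F => A ⊆ F) := by
    apply Finset.filter_congr
    intro F _
    simp
  rw [hsimp, Finset.sdiff_empty] at hxi
  refine hxi.trans ?_
  have hbd : (bd E A).card ≤ A.card * D :=
    card_bd_le E A D (fun e he => hD e (hAE he))
  calc (1 + τ) ^ (bd E A).card ≤ (1 + τ) ^ (A.card * D) :=
        pow_le_pow_right₀ (by linarith) hbd
    _ = ((1 + τ) ^ D) ^ A.card := by rw [← pow_mul, mul_comm]
    _ ≤ 3 ^ A.card := pow_le_pow_left₀ (by positivity) h3 _

end Vale.Agent.Lib.P050
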