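import Vale.Agent.Lib.P050.Recur

/-!
The domination argument: the abstract polymer theorem which gives the local inequality.
-/

open Finset
open scoped Classical

noncomputable section

namespace Vale.Agent.Lib.P050

variable {V : Type*}

/-- The hypotheses on the polymer weights. -/
structure TauHyp [Fintype V] (E : Finset (Sym2 V)) (τ : Finset (Sym2 V) → ℝ)
    (ε a : ℝ) (b : ℕ → ℝ) : Prop where
  ha : 0 ≤ a
  hb : ∀ n, 0 ≤ b n
  mul : IsMult τ E
  empty : τ ∅ = 1
  bound : ∀ F, F ⊆ E → |τ F| ≤ ε ^ F.card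
  single : ∀ e ∈ E, τ {e} = 0
  cherry : ∀ F ∈ polys E, F.card = 2 → τ F = ε ^ 2 * a
  l2 : ∀ F ∈ polys E, 3 ≤ F.card → 2 ≤ (leaves F).card → |τ F| ≤ ε ^ F.card * a
  circ : ∀ F ∈ polys E, IsShortest F F → τ F = ε ^ F.card * b F.card
  l0 : ∀ F ∈ polys E, leaves F = ∅ → ∀ C, IsShortest C F → C ≠ F → |τ F| ≤ ε ^ F.card * b C.card
  l1 : ∀ F ∈ polys E, (leaves F).card = 1 → ∀ C, IsShortest C F →
    (τ F) ^ 2 ≤ ε ^ (2 * F.card) * a * b C.card

/-- Edges touching a given edge: at most twice the maximum degree. -/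
lemma card_nbrs_le {E : Finset (Sym2 V)} {Δ : ℕ} (hdeg : ∀ v, deg E v ≤ Δ) (e : Sym2 V) :
    (nbrs E e).card ≤ 2 * Δ := by
  induction e using Sym2.ind with
  | _ x y =>
    have hsub : nbrs E s(x, y) ⊆ E.filter (fun f => x ∈ f) ∪ E.filter (fun f => y ∈ f) := by
      intro f hf
      simp only [nbrs, mem_filter] at hf
      obtain ⟨hfE, _, u, hu, huf⟩ := hf
      simp only [Sym2.mem_iff] at hu
      rcases hu with rfl | rfl
      · exact Finset.mem_union_left _ (Finset.mem_filter.mpr ⟨hfE, huf⟩)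
      · exact Finset.mem_union_right _ (Finset.mem_filter.mpr ⟨hfE, huf⟩)
    calc (nbrs E s(x, y)).card ≤ _ := card_le_card hsub
      _ ≤ (E.filter (fun f => x ∈ f)).card + (E.filter (fun f => y ∈ f)).card :=
          Finset.card_union_le _ _
      _ ≤ Δ + Δ := add_le_add (hdeg x) (hdeg y)
      _ = 2 * Δ := by ring

section Numeric

/-- The basic estimate `ζ ^ (m) ≤ γ * θ ^ m` for `m ≥ 1` when `ζ = γ * θ`, `γ ≤ 1`. -/
lemma zeta_pow_le {ζ γ θ : ℝ} (hγ0 : 0 ≤ γ) (hγ1 : γ ≤ 1) (hθ : 0 ≤ θ) (hζ : ζ = γ * θ)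
    {m k : ℕ} (hm : k ≤ m) : ζ ^ m ≤ γ ^ k * θ ^ m := by
  rw [hζ, mul_pow]
  apply mul_le_mul_of_nonneg_right _ (by positivity)
  exact pow_le_pow_of_le_one hγ0 hγ1 hm

end Numeric

/-- Pointwise charge for a polymer with at least two leaves. -/
lemma charge_l2 {ε σ γ θ ζ a tF RF Rc : ℝ} {n : ℕ}
    (hε : 0 < ε) (hσ : 1 ≤ σ) (hγ0 : 0 < γ) (hγ1 : γ ≤ 1) (hθ : 0 < θ)
    (hζ' : ζ = ε * σ) (hζ : ζ = γ * θ) (ha : 0 ≤ a) (hn : 3 ≤ n)
    (h1 : |tF| ≤ ε ^ n * a) (hR0 : 0 < RF) (hR : RF ≤ σ ^ n) (hRc : 1 ≤ σ ^ 2 * Rc) :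
    |tF * RF| ≤ (ε ^ 2 * a) * Rc * (σ ^ 4 * γ) * θ ^ (n - 2) := by
  have hσ0 : 0 < σ := by linarith
  have hle : ζ ^ (n - 2) ≤ γ ^ 1 * θ ^ (n - 2) :=
    zeta_pow_le hγ0.le hγ1 hθ.le hζ (by omega)
  have hRcpos : 0 ≤ Rc := by
    by_contra h
    push_neg at h
    have : σ ^ 2 * Rc < 0 := mul_neg_of_pos_of_neg (by positivity) h
    linarith
  have hnn : n = 2 + (n - 2) := by omega
  have step1 : |tF * RF| ≤ ζ ^ n * a := by
    rw [abs_mul, abs_of_pos hR0, hζ', mul_pow]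
    calc |tF| * RF ≤ (ε ^ n * a) * σ ^ n :=
          mul_le_mul h1 hR hR0.le (by positivity)
      _ = _ := by ring
  have step2 : ζ ^ n * a ≤ (ε * σ) ^ 2 * a * γ * θ ^ (n - 2) := by
    rw [hnn, pow_add]
    simp only [Nat.add_sub_cancel_left]
    rw [← hζ']
    have : ζ ^ 2 * ζ ^ (n - 2) * a = ζ ^ 2 * a * ζ ^ (n - 2) := by ring
    rw [this]
    have h2 : ζ ^ 2 * a * ζ ^ (n - 2) ≤ ζ ^ 2 * a * (γ ^ 1 * θ ^ (n - 2)) :=
      mul_le_mul_of_nonneg_left hle (by positivity)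
    calc _ ≤ _ := h2
      _ = _ := by ring
  have step3 : (ε * σ) ^ 2 * a * γ * θ ^ (n - 2)
      ≤ (ε ^ 2 * a) * Rc * (σ ^ 4 * γ) * θ ^ (n - 2) := by
    have hpos : 0 ≤ ε ^ 2 * a * σ ^ 2 * γ * θ ^ (n - 2) := by positivity
    have : (ε ^ 2 * a) * Rc * (σ ^ 4 * γ) * θ ^ (n - 2)
        = (ε ^ 2 * a * σ ^ 2 * γ * θ ^ (n - 2)) * (σ ^ 2 * Rc) := by ring
    rw [this]
    have h3 : (ε * σ) ^ 2 * a * γ * θ ^ (n - 2) = (ε ^ 2 * a * σ ^ 2 * γ * θ ^ (n - 2)) * 1 := by
      ring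
    rw [h3]
    exact mul_le_mul_of_nonneg_left hRc hpos
  exact step1.trans (step2.trans step3)

/-- The lower bound for the main term of a cycle. -/
lemma cycle_main_lb {ε σ γ β RC : ℝ} {k : ℕ}
    (hε : 0 < ε) (hσ : 1 ≤ σ) (hγ0 : 0 < γ) (hβ : 0 ≤ β) (hRC : 1 ≤ σ ^ (2 * k) * RC) :
    (ε * σ) ^ (2 * k) * β * γ ^ k ≤ (ε ^ (2 * k) * β) * RC * (γ * σ ^ 4) ^ k := by
  have hσ0 : 0 < σ := by linarith
  have hpos : 0 ≤ ε ^ (2 * k) * β * γ ^ k * σ ^ (2 * k) := by positivity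
  have h1 : (ε ^ (2 * k) * β) * RC * (γ * σ ^ 4) ^ k
      = (ε ^ (2 * k) * β * γ ^ k * σ ^ (2 * k)) * (σ ^ (2 * k) * RC) := by
    rw [mul_pow, ← pow_mul]
    have : σ ^ (4 * k) = σ ^ (2 * k) * σ ^ (2 * k) := by
      rw [← pow_add]
      congr 1
      ring
    rw [this]
    ring
  rw [h1]
  have h2 : (ε * σ) ^ (2 * k) * β * γ ^ k = (ε ^ (2 * k) * β * γ ^ k * σ ^ (2 * k)) * 1 := by
    rw [mul_pow]
    ring
  rw [h2]
  exact mul_le_mul_of_nonneg_left hRC hpos

/-- Pointwise charge for a leafless polymer with a proper shortest even subset. -/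
lemma charge_l0 {ε σ γ θ ζ β tF RF RC : ℝ} {n k : ℕ}
    (hε : 0 < ε) (hσ : 1 ≤ σ) (hγ0 : 0 < γ) (hγ1 : γ ≤ 1) (hθ : 0 < θ)
    (hζ' : ζ = ε * σ) (hζ : ζ = γ * θ) (hβ : 0 ≤ β) (hn : 2 * k + k ≤ n)
    (h1 : |tF| ≤ ε ^ n * β) (hR0 : 0 < RF) (hR : RF ≤ σ ^ n) (hRC : 1 ≤ σ ^ (2 * k) * RC) :
    |tF * RF| ≤ (ε ^ (2 * k) * β) * RC * (γ * σ ^ 4) ^ k * θ ^ (n - 2 * k) := by
  have hσ0 : 0 < σ := by linarith
  have hle : ζ ^ (n - 2 * k) ≤ γ ^ k * θ ^ (n - 2 * k) :=
    zeta_pow_le hγ0.le hγ1 hθ.le hζ (by omega)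
  have hnn : n = 2 * k + (n - 2 * k) := by omega
  have step1 : |tF * RF| ≤ ζ ^ n * β := by
    rw [abs_mul, abs_of_pos hR0, hζ', mul_pow]
    calc |tF| * RF ≤ (ε ^ n * β) * σ ^ n :=
          mul_le_mul h1 hR hR0.le (by positivity)
      _ = _ := by ring
  have hmain := cycle_main_lb (k := k) hε hσ hγ0 hβ hRC
  have step2 : ζ ^ n * β ≤ (ε * σ) ^ (2 * k) * β * γ ^ k * θ ^ (n - 2 * k) := by
    rw [hnn, pow_add]
    simp only [Nat.add_sub_cancel_left]
    rw [← hζ']
    have h2 : ζ ^ (2 * k) * β * ζ ^ (n - 2 * k)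
        ≤ ζ ^ (2 * k) * β * (γ ^ k * θ ^ (n - 2 * k)) :=
      mul_le_mul_of_nonneg_left hle (by rw [hζ']; positivity)
    calc ζ ^ (2 * k) * ζ ^ (n - 2 * k) * β = ζ ^ (2 * k) * β * ζ ^ (n - 2 * k) := by ring
      _ ≤ _ := h2
      _ = _ := by ring
  have step3 : (ε * σ) ^ (2 * k) * β * γ ^ k * θ ^ (n - 2 * k)
      ≤ (ε ^ (2 * k) * β) * RC * (γ * σ ^ 4) ^ k * θ ^ (n - 2 * k) :=
    mul_le_mul_of_nonneg_right hmain (by positivity)
  exact step1.trans (step2.trans step3)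

/-- Pointwise charge for a polymer with exactly one leaf. -/
lemma charge_l1 {ε σ γ θ ζ a β tF RF Rc RC : ℝ} {n k : ℕ}
    (hε : 0 < ε) (hσ : 1 ≤ σ) (hγ0 : 0 < γ) (hγ1 : γ ≤ 1) (hθ : 0 < θ)
    (hζ' : ζ = ε * σ) (hζ : ζ = γ * θ) (ha : 0 ≤ a) (hβ : 0 ≤ β)
    (hk : 2 ≤ k) (hn : 2 * k + 1 ≤ n)
    (h1 : tF ^ 2 ≤ ε ^ (2 * n) * a * β) (hR0 : 0 < RF) (hR : RF ≤ σ ^ n)
    (hRc : 1 ≤ σ ^ 2 * Rc) (hRC : 1 ≤ σ ^ (2 * k) * RC) :
    |tF * RF| ≤ (ε ^ 2 * a) * Rc * (σ ^ 4 * γ) * θ ^ (n - 2)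
        + (ε ^ (2 * k) * β) * RC * (γ * σ ^ 4) ^ k * θ ^ (n - 2 * k) := by
  have hσ0 : 0 < σ := by linarith
  have hζ0 : 0 < ζ := by rw [hζ']; positivity
  set g : ℝ := γ ^ k with hg
  have hg0 : 0 < g := by positivity
  -- arithmetic-geometric mean
  have hAG : |tF| ≤ ε ^ n * ((a / g + g * β) / 2) := by
    apply abs_le_of_sq_le_sq _ (by positivity)
    have hag : a * β ≤ ((a / g + g * β) / 2) ^ 2 := by
      have h2 : a * β = (a / g) * (g * β) := by
        field_simp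
      rw [h2]
      nlinarith [sq_nonneg (a / g - g * β)]
    rw [mul_pow, ← pow_mul, mul_comm n 2]
    calc tF ^ 2 ≤ ε ^ (2 * n) * a * β := h1
      _ = ε ^ (2 * n) * (a * β) := by ring
      _ ≤ _ := mul_le_mul_of_nonneg_left hag (by positivity)
  have step1 : |tF * RF| ≤ ζ ^ n * ((a / g + g * β) / 2) := by
    rw [abs_mul, abs_of_pos hR0, hζ', mul_pow]
    calc |tF| * RF ≤ (ε ^ n * ((a / g + g * β) / 2)) * σ ^ n :=
          mul_le_mul hAG hR hR0.le (by positivity)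
      _ = _ := by ring
  have hnn : n = 2 + (n - 2) := by omega
  have hnk : n = 2 * k + (n - 2 * k) := by omega
  -- first term
  have hterm1 : ζ ^ n * (a / g) ≤ (ε ^ 2 * a) * Rc * (σ ^ 4 * γ) * θ ^ (n - 2) := by
    have hle : ζ ^ (n - 2) ≤ γ ^ (k + 1) * θ ^ (n - 2) :=
      zeta_pow_le hγ0.le hγ1 hθ.le hζ (by omega)
    have h2 : ζ ^ n * (a / g) ≤ ζ ^ 2 * a * γ * θ ^ (n - 2) := by
      have h3 : ζ ^ n = ζ ^ 2 * ζ ^ (n - 2) := by
        rw [← pow_add, ← hnn]
      rw [h3]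
      have h4 : ζ ^ 2 * ζ ^ (n - 2) * (a / g) = (ζ ^ 2 * a / g) * ζ ^ (n - 2) := by
        ring
      rw [h4]
      have h5 : 0 ≤ ζ ^ 2 * a / g := by positivity
      have h6 := mul_le_mul_of_nonneg_left hle h5
      refine h6.trans (le_of_eq ?_)
      have h10 : γ ^ (k + 1) = g * γ := by rw [hg, pow_succ]
      rw [h10]
      field_simp
    have h7 : ζ ^ 2 * a * γ * θ ^ (n - 2)
        ≤ (ε ^ 2 * a) * Rc * (σ ^ 4 * γ) * θ ^ (n - 2) := by
      have hpos : 0 ≤ ε ^ 2 * a * σ ^ 2 * γ * θ ^ (n - 2) := by positivity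
      have h8 : (ε ^ 2 * a) * Rc * (σ ^ 4 * γ) * θ ^ (n - 2)
          = (ε ^ 2 * a * σ ^ 2 * γ * θ ^ (n - 2)) * (σ ^ 2 * Rc) := by ring
      rw [h8, hζ']
      have h9 : (ε * σ) ^ 2 * a * γ * θ ^ (n - 2)
          = (ε ^ 2 * a * σ ^ 2 * γ * θ ^ (n - 2)) * 1 := by ring
      rw [h9]
      exact mul_le_mul_of_nonneg_left hRc hpos
    exact h2.trans h7
  -- second term
  have hterm2 : ζ ^ n * (g * β)
      ≤ (ε ^ (2 * k) * β) * RC * (γ * σ ^ 4) ^ k * θ ^ (n - 2 * k) := by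
    have hle : ζ ^ (n - 2 * k) ≤ γ ^ 0 * θ ^ (n - 2 * k) :=
      zeta_pow_le hγ0.le hγ1 hθ.le hζ (Nat.zero_le _)
    rw [pow_zero, one_mul] at hle
    have hmain := cycle_main_lb (k := k) hε hσ hγ0 hβ hRC
    have h3 : ζ ^ n = ζ ^ (2 * k) * ζ ^ (n - 2 * k) := by
      rw [← pow_add, ← hnk]
    rw [h3]
    have h4 : ζ ^ (2 * k) * ζ ^ (n - 2 * k) * (g * β)
        = (ζ ^ (2 * k) * β * g) * ζ ^ (n - 2 * k) := by ring
    rw [h4]
    have h5 : 0 ≤ ζ ^ (2 * k) * β * g := by positivity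
    have h6 := mul_le_mul_of_nonneg_left hle h5
    refine h6.trans ?_
    apply mul_le_mul_of_nonneg_right _ (by positivity)
    rw [hζ']
    exact hmain
  have hnonneg1 : 0 ≤ ζ ^ n * (a / g) := by positivity
  have hnonneg2 : 0 ≤ ζ ^ n * (g * β) := by positivity
  calc |tF * RF| ≤ ζ ^ n * ((a / g + g * β) / 2) := step1
    _ = (ζ ^ n * (a / g)) / 2 + (ζ ^ n * (g * β)) / 2 := by ring
    _ ≤ ζ ^ n * (a / g) + ζ ^ n * (g * β) := by linarith
    _ ≤ _ := add_le_add hterm1 hterm2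

/-- The domination inequality: the main polymers pay for all the others. -/
theorem domination [Fintype V] {E : Finset (Sym2 V)} {τ : Finset (Sym2 V) → ℝ}
    {ε a σ θ γ : ℝ} {b : ℕ → ℝ} (h : TauHyp E τ ε a b)
    (hloop : ∀ e ∈ E, ¬ e.IsDiag) (heven : ∀ X, X ⊆ E → IsEvenSet X → Even X.card)
    (hε : 0 < ε) (hσ : 1 ≤ σ) (hγ0 : 0 < γ) (hγ1 : γ ≤ 1) (hθ : 0 < θ)
    (hζ : ε * σ = γ * θ) (hκ : 9 * (σ ^ 4 * γ) ≤ 1)
    (D : ℕ) (hD : 1 ≤ D) (hnb : ∀ e ∈ E, (nbrs E e).card ≤ D) (hθD : θ = 1 / (3 * (D : ℝ)))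
    {R : Finset (Sym2 V) → ℝ}
    (hR : ∀ F ∈ polys E, 0 < R F ∧ R F ≤ σ ^ F.card ∧ 1 ≤ σ ^ F.card * R F) :
    0 ≤ ∑ F ∈ polys E, τ F * R F := by
  have hσ0 : 0 < σ := by linarith
  set w : Finset (Sym2 V) → ℝ := fun F => τ F * R F with hw
  set M1 := (polys E).filter (fun F => F.card = 2) with hM1
  set M2 := (polys E).filter (fun F => IsShortest F F) with hM2
  set O := (polys E).filter (fun F => 3 ≤ F.card ∧ ¬ IsShortest F F) with hO
  set S1 := (polys E).filter (fun F => F.card = 1) with hS1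
  -- shortest sets have at least three edges
  have hshort3 : ∀ C, C ⊆ E → IsShortest C C → 3 ≤ C.card := by
    intro C hCE hC
    exact three_le_card (fun e he => hloop e (hCE he)) hC.2.1 hC.2.2.1
  -- the decomposition of the sum
  have hdecomp : ∑ F ∈ polys E, w F = ∑ F ∈ S1, w F + ∑ F ∈ M1, w F + ∑ F ∈ M2, w F + ∑ F ∈ O, w F := by
    rw [hS1, hM1, hM2, hO, Finset.sum_filter, Finset.sum_filter, Finset.sum_filter,
      Finset.sum_filter, ← Finset.sum_add_distrib, ← Finset.sum_add_distrib,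
      ← Finset.sum_add_distrib]
    apply Finset.sum_congr rfl
    intro F hF
    have hFmem := mem_polys.mp hF
    have hpos : 1 ≤ F.card := Finset.card_pos.mpr hFmem.2.1
    by_cases h1 : F.card = 1
    · have h2 : ¬ IsShortest F F := by
        intro hs
        have := hshort3 F hFmem.1 hs
        omega
      simp [h1, h2]
    · by_cases h2 : F.card = 2
      · have h3 : ¬ IsShortest F F := by
          intro hs
          have := hshort3 F hFmem.1 hs
          omega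
        simp [h2, h3]
      · by_cases h3 : IsShortest F F
        · have h4 := hshort3 F hFmem.1 h3
          simp [h1, h2, h3]
        · have h4 : 3 ≤ F.card := by omega
          simp [h1, h2, h3, h4]
  -- singletons vanish
  have hS1zero : ∑ F ∈ S1, w F = 0 := by
    apply Finset.sum_eq_zero
    intro F hF
    rw [hS1, mem_filter] at hF
    obtain ⟨e, rfl⟩ := Finset.card_eq_one.mp hF.2
    have heE : e ∈ E := (mem_polys.mp hF.1).1 (by simp)
    simp only [hw]
    rw [h.single e heE, zero_mul]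
  -- values of the main polymers
  have hM1val : ∀ c ∈ M1, w c = ε ^ 2 * a * R c := by
    intro c hc
    rw [hM1, mem_filter] at hc
    simp only [hw]
    rw [h.cherry c hc.1 hc.2]
  have hM1nn : ∀ c ∈ M1, 0 ≤ w c := by
    intro c hc
    rw [hM1val c hc]
    have hc' := (mem_filter.mp hc).1
    have := (hR c hc').1
    have := h.ha
    positivity
  have hM2val : ∀ C ∈ M2, w C = ε ^ C.card * b C.card * R C := by
    intro C hC
    rw [hM2, mem_filter] at hC
    simp only [hw]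
    rw [h.circ C hC.1 hC.2]
  have hM2nn : ∀ C ∈ M2, 0 ≤ w C := by
    intro C hC
    rw [hM2val C hC]
    have hC' := (mem_filter.mp hC).1
    have := (hR C hC').1
    have := h.hb C.card
    positivity
  -- weights for the charges
  set g1 : Finset (Sym2 V) → Finset (Sym2 V) → ℝ :=
    fun c F => w c * (σ ^ 4 * γ) * θ ^ (F \ c).card with hg1
  set g2 : Finset (Sym2 V) → Finset (Sym2 V) → ℝ :=
    fun C F => w C * (γ * σ ^ 4) ^ (C.card / 2) * θ ^ (F \ C).card with hg2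
  have hg1nn : ∀ c ∈ M1, ∀ F, 0 ≤ g1 c F := by
    intro c hc F
    have := hM1nn c hc
    simp only [hg1]
    positivity
  have hg2nn : ∀ C ∈ M2, ∀ F, 0 ≤ g2 C F := by
    intro C hC F
    have := hM2nn C hC
    simp only [hg2]
    positivity
  -- membership of the sub-objects
  have hshortmem : ∀ F ∈ polys E, ∀ C, IsShortest C F →
      C ∈ M2 ∧ C ⊆ F ∧ ∃ k, C.card = 2 * k ∧ 2 ≤ k ∧ C.card / 2 = k := by
    intro F hF C hC
    have hFE := (mem_polys.mp hF).1
    have hCE : C ⊆ E := hC.1.trans hFE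
    have hCC := isShortest_self hC
    have h3 := hshort3 C hCE hCC
    obtain ⟨k, hk⟩ := heven C hCE hC.2.2.1
    refine ⟨?_, hC.1, k, by omega, by omega, by omega⟩
    rw [hM2, mem_filter, mem_polys]
    exact ⟨⟨hCE, shortest_conn hC⟩, hCC⟩
  -- the pointwise charge
  have hcharge : ∀ F ∈ O, |w F| ≤ ∑ c ∈ M1.filter (fun c => c ⊆ F), g1 c F
      + ∑ C ∈ M2.filter (fun C => C ⊆ F), g2 C F := by
    intro F hF
    rw [hO, mem_filter] at hF
    obtain ⟨hFp, hF3, hFns⟩ := hF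
    have hFE := (mem_polys.mp hFp).1
    have hFc := (mem_polys.mp hFp).2
    have hlF : ∀ e ∈ F, ¬ e.IsDiag := fun e he => hloop e (hFE he)
    obtain ⟨hR0, hRle, _⟩ := hR F hFp
    have hnn1 : ∀ x ∈ M1.filter (fun c => c ⊆ F), 0 ≤ g1 x F := fun x hx =>
      hg1nn x (mem_filter.mp hx).1 F
    have hnn2 : ∀ x ∈ M2.filter (fun C => C ⊆ F), 0 ≤ g2 x F := fun x hx =>
      hg2nn x (mem_filter.mp hx).1 F
    have hsum1nn : 0 ≤ ∑ c ∈ M1.filter (fun c => c ⊆ F), g1 c F := Finset.sum_nonneg hnn1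
    have hsum2nn : 0 ≤ ∑ C ∈ M2.filter (fun C => C ⊆ F), g2 C F := Finset.sum_nonneg hnn2
    -- a cherry inside `F`
    obtain ⟨c, hcF, hc2, hcc⟩ := exists_pair hFc (by omega)
    have hcp : c ∈ polys E := mem_polys.mpr ⟨hcF.trans hFE, hcc⟩
    have hcM : c ∈ M1.filter (fun c => c ⊆ F) := by
      simp only [hM1, mem_filter]
      exact ⟨⟨hcp, hc2⟩, hcF⟩
    have hRc : 1 ≤ σ ^ 2 * R c := by
      have := (hR c hcp).2.2
      rwa [hc2] at this
    have hcterm : g1 c F = (ε ^ 2 * a) * R c * (σ ^ 4 * γ) * θ ^ (F.card - 2) := by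
      simp only [hg1]
      rw [hM1val c (mem_filter.mp hcM).1, Finset.card_sdiff_of_subset hcF, hc2]
    have hcle : g1 c F ≤ ∑ c ∈ M1.filter (fun c => c ⊆ F), g1 c F :=
      Finset.single_le_sum hnn1 hcM
    by_cases hl2 : 2 ≤ (leaves F).card
    · -- at least two leaves
      have := charge_l2 (tF := τ F) (RF := R F) (Rc := R c) (a := a) (ζ := ε * σ) (n := F.card)
        hε hσ hγ0 hγ1 hθ rfl hζ h.ha hF3 (h.l2 F hFp hF3 hl2) hR0 hRle hRc
      rw [← hcterm] at this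
      calc |w F| ≤ g1 c F := this
        _ ≤ _ := by linarith
    · -- at most one leaf: a shortest even subset
      obtain ⟨C, hC⟩ := exists_shortest_of_leaves hlF hFc.1 (by omega)
      obtain ⟨hCM2, hCF, k, hk, hk2, hkk⟩ := hshortmem F hFp C hC
      have hCp : C ∈ polys E := (mem_filter.mp hCM2).1
      have hRC : 1 ≤ σ ^ (2 * k) * R C := by
        have := (hR C hCp).2.2
        rwa [hk] at this
      have hCmem : C ∈ M2.filter (fun C => C ⊆ F) := mem_filter.mpr ⟨hCM2, hCF⟩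
      have hCterm : g2 C F = (ε ^ (2 * k) * b (2 * k)) * R C * (γ * σ ^ 4) ^ k
          * θ ^ (F.card - 2 * k) := by
        simp only [hg2]
        rw [hM2val C hCM2, Finset.card_sdiff_of_subset hCF, hkk, hk]
      have hCle : g2 C F ≤ ∑ C ∈ M2.filter (fun C => C ⊆ F), g2 C F :=
        Finset.single_le_sum hnn2 hCmem
      by_cases hl1 : (leaves F).card = 1
      · -- exactly one leaf
        have hne : C ≠ F := ne_of_leaf hC (Finset.card_pos.mp (by omega))
        have hlt : C.card < F.card :=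
          Finset.card_lt_card (Finset.ssubset_iff_subset_ne.mpr ⟨hCF, hne⟩)
        have hsq := h.l1 F hFp hl1 C hC
        rw [hk] at hsq
        have := charge_l1 (tF := τ F) (RF := R F) (Rc := R c) (RC := R C) (a := a)
          (β := b (2 * k)) (ζ := ε * σ) (n := F.card) (k := k)
          hε hσ hγ0 hγ1 hθ rfl hζ h.ha (h.hb _) hk2 (by omega) hsq hR0 hRle hRc hRC
        rw [← hcterm, ← hCterm] at this
        calc |w F| ≤ g1 c F + g2 C F := this
          _ ≤ _ := add_le_add hcle hCle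
      · -- no leaves
        have hl0 : leaves F = ∅ := by
          apply Finset.card_eq_zero.mp
          omega
        have hne : C ≠ F := by
          rintro rfl
          exact hFns hC
        have hear := ear_bound hlF hFc hl0 hC hne
        rw [Finset.card_sdiff_of_subset hCF] at hear
        have hbd := h.l0 F hFp hl0 C hC hne
        rw [hk] at hbd
        have := charge_l0 (tF := τ F) (RF := R F) (RC := R C)
          (β := b (2 * k)) (ζ := ε * σ) (n := F.card) (k := k)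
          hε hσ hγ0 hγ1 hθ rfl hζ (h.hb _) (by omega) hbd hR0 hRle hRC
        rw [← hCterm] at this
        calc |w F| ≤ g2 C F := this
          _ ≤ _ := by linarith
  -- summing the charges
  have hθform : θ = 1 / (3 * (D : ℝ)) := hθD
  have hsumsuper : ∀ A ∈ polys E, ∑ F ∈ O.filter (fun F => A ⊆ F), θ ^ (F \ A).card ≤ 3 ^ A.card := by
    intro A hA
    have hA' := mem_polys.mp hA
    have := sum_polys_superset E A D hD hnb hA'.2.1 hA'.1
    rw [← hθform] at this
    refine le_trans ?_ this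
    apply Finset.sum_le_sum_of_subset_of_nonneg
    · intro F hF
      simp only [hO, mem_filter] at hF ⊢
      exact ⟨hF.1.1, hF.2⟩
    · intro i _ _
      positivity
  have hA1 : ∑ F ∈ O, ∑ c ∈ M1.filter (fun c => c ⊆ F), g1 c F ≤ ∑ c ∈ M1, w c := by
    rw [Finset.sum_comm' (s' := fun c => O.filter (fun F => c ⊆ F)) (t' := M1)]
    · apply Finset.sum_le_sum
      intro c hc
      have hcp : c ∈ polys E := (mem_filter.mp hc).1
      have hc2 : c.card = 2 := (mem_filter.mp hc).2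
      have h1 := hsumsuper c hcp
      rw [hc2] at h1
      have hwc := hM1nn c hc
      calc ∑ F ∈ O.filter (fun F => c ⊆ F), g1 c F
          = w c * (σ ^ 4 * γ) * ∑ F ∈ O.filter (fun F => c ⊆ F), θ ^ (F \ c).card := by
            rw [Finset.mul_sum]
        _ ≤ w c * (σ ^ 4 * γ) * 3 ^ 2 :=
            mul_le_mul_of_nonneg_left h1 (by positivity)
        _ = w c * (9 * (σ ^ 4 * γ)) := by ring
        _ ≤ w c * 1 := mul_le_mul_of_nonneg_left hκ hwc
        _ = w c := mul_one _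
    · intro F c
      simp only [mem_filter]
      tauto
  have hA2 : ∑ F ∈ O, ∑ C ∈ M2.filter (fun C => C ⊆ F), g2 C F ≤ ∑ C ∈ M2, w C := by
    rw [Finset.sum_comm' (s' := fun C => O.filter (fun F => C ⊆ F)) (t' := M2)]
    · apply Finset.sum_le_sum
      intro C hC
      have hCp : C ∈ polys E := (mem_filter.mp hC).1
      have hCs : IsShortest C C := (mem_filter.mp hC).2
      obtain ⟨_, _, k, hk, _, hkk⟩ := hshortmem C hCp C hCs
      have h1 := hsumsuper C hCp
      have hwC := hM2nn C hC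
      have hpow : (γ * σ ^ 4) ^ k * 3 ^ (2 * k) ≤ 1 := by
        have : (γ * σ ^ 4) ^ k * 3 ^ (2 * k) = (9 * (σ ^ 4 * γ)) ^ k := by
          rw [pow_mul, ← mul_pow]
          congr 1
          norm_num
          ring
        rw [this]
        exact pow_le_one₀ (by positivity) hκ
      calc ∑ F ∈ O.filter (fun F => C ⊆ F), g2 C F
          = w C * (γ * σ ^ 4) ^ k * ∑ F ∈ O.filter (fun F => C ⊆ F), θ ^ (F \ C).card := by
            rw [Finset.mul_sum, hg2]
            simp only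
            rw [hkk]
        _ ≤ w C * (γ * σ ^ 4) ^ k * 3 ^ C.card :=
            mul_le_mul_of_nonneg_left h1 (by positivity)
        _ = w C * ((γ * σ ^ 4) ^ k * 3 ^ (2 * k)) := by rw [hk]; ring
        _ ≤ w C * 1 := mul_le_mul_of_nonneg_left hpow hwC
        _ = w C := mul_one _
    · intro F c
      simp only [mem_filter]
      tauto
  have hOabs : ∑ F ∈ O, |w F| ≤ ∑ c ∈ M1, w c + ∑ C ∈ M2, w C := by
    calc ∑ F ∈ O, |w F|
        ≤ ∑ F ∈ O, (∑ c ∈ M1.filter (fun c => c ⊆ F), g1 c F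
            + ∑ C ∈ M2.filter (fun C => C ⊆ F), g2 C F) := Finset.sum_le_sum hcharge
      _ = _ + _ := Finset.sum_add_distrib
      _ ≤ _ := add_le_add hA1 hA2
  have hOlow : -∑ F ∈ O, |w F| ≤ ∑ F ∈ O, w F := by
    rw [← Finset.sum_neg_distrib]
    exact Finset.sum_le_sum (fun F _ => neg_abs_le _)
  show 0 ≤ ∑ F ∈ polys E, w F
  rw [hdecomp, hS1zero]
  linarith

/-- The abstract local theorem. -/
theorem abstract_main [Fintype V] {E : Finset (Sym2 V)} {τ : Finset (Sym2 V) → ℝ}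
    {a : ℝ} {b : ℕ → ℝ} {Δ : ℕ} (hΔ : 1 ≤ Δ) (h : TauHyp E τ (1 / (60 * (Δ : ℝ))) a b)
    (hloop : ∀ e ∈ E, ¬ e.IsDiag) (heven : ∀ X, X ⊆ E → IsEvenSet X → Even X.card)
    (hdeg : ∀ v, deg E v ≤ Δ) : 1 ≤ Z τ E univ := by
  have hΔr : (1:ℝ) ≤ Δ := by exact_mod_cast hΔ
  have hΔ0 : (0:ℝ) < Δ := by linarith
  set ε : ℝ := 1 / (60 * (Δ : ℝ)) with hε
  have hε0 : 0 < ε := by positivity
  set ρ : ℝ := 129 / 128 with hρ
  set σ : ℝ := ρ ^ 2 with hσ
  set D : ℕ := 2 * Δ with hD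
  have hDr : (D : ℝ) = 2 * Δ := by
    rw [hD]
    push_cast
    ring
  set θ : ℝ := 1 / (3 * (D : ℝ)) with hθ
  have hθ0 : 0 < θ := by
    rw [hθ, hDr]
    positivity
  set γ : ℝ := σ / 10 with hγ
  have hσval : σ = 16641 / 16384 := by
    rw [hσ, hρ]
    norm_num
  have hγ0 : 0 < γ := by
    rw [hγ, hσval]
    norm_num
  have hγ1 : γ ≤ 1 := by
    rw [hγ, hσval]
    norm_num
  have hσ1 : 1 ≤ σ := by
    rw [hσval]
    norm_num
  have hζ : ε * σ = γ * θ := by
    rw [hγ, hθ, hDr, hε]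
    field_simp
    norm_num
  have hκ : 9 * (σ ^ 4 * γ) ≤ 1 := by
    rw [hγ, hσval]
    norm_num
  have hnb : ∀ e ∈ E, (nbrs E e).card ≤ D := fun e _ => card_nbrs_le hdeg e
  have hD1 : 1 ≤ D := by omega
  -- the Dobrushin condition
  have hβ : ∀ v, ∑ P ∈ polysAt E univ v, |τ P| * ρ ^ (verts P).card ≤ ρ - 1 := by
    intro v
    have hpoint : ∀ P ∈ polysAt E univ v, |τ P| * ρ ^ (verts P).card
        ≤ ∑ e ∈ (seeds E v).filter (fun e => e ∈ P), (ε * σ) * γ * θ ^ (P \ {e}).card := by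
      intro P hP
      simp only [polysAt, inside_univ, mem_filter, mem_polys] at hP
      obtain ⟨⟨hPE, hPc⟩, hvP⟩ := hP
      have hnn : ∀ e ∈ (seeds E v).filter (fun e => e ∈ P),
          0 ≤ (ε * σ) * γ * θ ^ (P \ {e}).card := by
        intro e _
        positivity
      rw [mem_verts] at hvP
      obtain ⟨e, heP, hve⟩ := hvP
      have hemem : e ∈ (seeds E v).filter (fun e => e ∈ P) := by
        simp only [seeds, mem_filter]
        exact ⟨⟨hPE heP, hve⟩, heP⟩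
      have hcardpos : 1 ≤ P.card := Finset.card_pos.mpr ⟨e, heP⟩
      by_cases hP1 : P.card = 1
      · obtain ⟨e', he'⟩ := Finset.card_eq_one.mp hP1
        have heE : e' ∈ E := hPE (by rw [he']; simp)
        rw [he', h.single e' heE]
        simp only [abs_zero, zero_mul]
        rw [← he']
        exact Finset.sum_nonneg hnn
      · have hP2 : 2 ≤ P.card := by omega
        have hterm : |τ P| * ρ ^ (verts P).card ≤ (ε * σ) * γ * θ ^ (P \ {e}).card := by
          have h1 : ρ ^ (verts P).card ≤ σ ^ P.card := by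
            rw [hσ, ← pow_mul]
            exact pow_le_pow_right₀ (by rw [hρ]; norm_num) (card_verts_le P)
          have h2 : |τ P| ≤ ε ^ P.card := h.bound P hPE
          have hcard : (P \ {e}).card = P.card - 1 := by
            rw [Finset.card_sdiff_of_subset (by simpa using heP)]
            simp
          have h3 : (ε * σ) ^ (P.card - 1) ≤ γ ^ 1 * θ ^ (P.card - 1) :=
            zeta_pow_le hγ0.le hγ1 hθ0.le hζ (by omega)
          have h4 : P.card = 1 + (P.card - 1) := by omega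
          calc |τ P| * ρ ^ (verts P).card ≤ ε ^ P.card * σ ^ P.card :=
                mul_le_mul h2 h1 (by positivity) (by positivity)
            _ = (ε * σ) ^ P.card := by rw [mul_pow]
            _ = (ε * σ) * (ε * σ) ^ (P.card - 1) := by
                rw [← pow_succ']
                congr 1
                omega
            _ ≤ (ε * σ) * (γ ^ 1 * θ ^ (P.card - 1)) :=
                mul_le_mul_of_nonneg_left h3 (by positivity)
            _ = _ := by rw [hcard]; ring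
        exact hterm.trans (Finset.single_le_sum hnn hemem)
    calc ∑ P ∈ polysAt E univ v, |τ P| * ρ ^ (verts P).card
        ≤ ∑ P ∈ polysAt E univ v, ∑ e ∈ (seeds E v).filter (fun e => e ∈ P),
            (ε * σ) * γ * θ ^ (P \ {e}).card := Finset.sum_le_sum hpoint
      _ = ∑ e ∈ seeds E v, ∑ P ∈ (polysAt E univ v).filter (fun P => e ∈ P),
            (ε * σ) * γ * θ ^ (P \ {e}).card := by
          apply Finset.sum_comm'
          intro P e
          simp only [mem_filter]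
          tauto
      _ ≤ ∑ e ∈ seeds E v, (ε * σ) * γ * 3 := by
          apply Finset.sum_le_sum
          intro e he
          have heE : e ∈ E := (mem_filter.mp he).1
          have h1 := sum_polys_superset E {e} D hD1 hnb (by simp) (by simpa using heE)
          rw [← hθ] at h1
          simp only [card_singleton, pow_one] at h1
          have h2 : ∑ P ∈ (polysAt E univ v).filter (fun P => e ∈ P), θ ^ (P \ {e}).card
              ≤ ∑ F ∈ (polys E).filter (fun F => {e} ⊆ F), θ ^ (F \ {e}).card := by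
            apply Finset.sum_le_sum_of_subset_of_nonneg
            · intro F hF
              simp only [polysAt, inside_univ, mem_filter] at hF
              simp only [mem_filter, singleton_subset_iff]
              exact ⟨hF.1.1, hF.2⟩
            · intro i _ _
              positivity
          rw [← Finset.mul_sum]
          exact mul_le_mul_of_nonneg_left (h2.trans h1) (by positivity)
      _ = (seeds E v).card * ((ε * σ) * γ * 3) := by
          rw [Finset.sum_const, nsmul_eq_mul]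
      _ ≤ (Δ : ℝ) * ((ε * σ) * γ * 3) := by
          apply mul_le_mul_of_nonneg_right _ (by positivity)
          exact_mod_cast hdeg v
      _ ≤ ρ - 1 := by
          have : (Δ : ℝ) * ((ε * σ) * γ * 3) = σ * γ * 3 / 60 := by
            rw [hε]
            field_simp
          rw [this, hγ, hσval, hρ]
          norm_num
  obtain ⟨R, hR, hlog⟩ := telescoping h.mul h.empty (by rw [hρ]; norm_num) hβ
  have hdom := domination h hloop heven hε0 hσ1 hγ0 hγ1 hθ0 hζ hκ D hD1 hnb hθ hR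
  have hZpos : 0 < Z τ E univ :=
    (dobrushin h.mul (by rw [h.empty]; norm_num) (by rw [hρ]; norm_num) hβ univ).1
  have hlog0 : 0 ≤ Real.log (Z τ E univ) := hdom.trans hlog
  by_contra hlt
  push_neg at hlt
  have := Real.log_neg hZpos hlt
  linarith

end Vale.Agent.Lib.P050
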