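import Vale.Agent.Lib.P050.Combi

/-!
Even edge sets, shortest even subsets and their description as cycles.
-/

open Finset
open scoped Classical

noncomputable section

namespace Vale.Agent.Lib.P050

variable {V : Type*}

/-- Number of edges of `F` at `v`. -/
def deg (F : Finset (Sym2 V)) (v : V) : ℕ := (F.filter (fun e => v ∈ e)).card

/-- All degrees even. -/
def IsEvenSet (X : Finset (Sym2 V)) : Prop := ∀ v, Even (deg X v)

/-- `C` is a smallest nonempty even subset of `F`. -/
def IsShortest (C F : Finset (Sym2 V)) : Prop :=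
  C ⊆ F ∧ C.Nonempty ∧ IsEvenSet C ∧ ∀ X, X ⊆ F → X.Nonempty → IsEvenSet X → C.card ≤ X.card

lemma deg_insert {X : Finset (Sym2 V)} {e : Sym2 V} (he : e ∉ X) (v : V) :
    deg (insert e X) v = deg X v + (if v ∈ e then 1 else 0) := by
  unfold deg
  rw [Finset.filter_insert]
  split_ifs with h
  · rw [Finset.card_insert_of_notMem]
    simp [he]
  · simp

lemma deg_le_of_subset {X Y : Finset (Sym2 V)} (h : X ⊆ Y) (v : V) : deg X v ≤ deg Y v :=
  card_le_card (Finset.filter_subset_filter _ h)

lemma deg_pos_iff {X : Finset (Sym2 V)} {v : V} : 0 < deg X v ↔ v ∈ verts X := by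
  unfold deg
  rw [Finset.card_pos, mem_verts]
  constructor
  · rintro ⟨e, he⟩
    simp only [mem_filter] at he
    exact ⟨e, he.1, he.2⟩
  · rintro ⟨e, he, hv⟩
    exact ⟨e, by simp [he, hv]⟩

lemma deg_symmDiff_even {X Y : Finset (Sym2 V)} {v : V}
    (h : Even (deg X v) ↔ Even (deg Y v)) : Even (deg (symmDiff X Y) v) := by
  have h1 : deg X v = ((X \ Y).filter (fun e => v ∈ e)).card + ((X ∩ Y).filter (fun e => v ∈ e)).card := by
    unfold deg
    rw [← Finset.card_union_of_disjoint]
    · congr 1
      rw [← Finset.filter_union, Finset.sdiff_union_inter]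
    · apply Finset.disjoint_filter_filter
      exact Finset.disjoint_sdiff_inter X Y
  have h2 : deg Y v = ((Y \ X).filter (fun e => v ∈ e)).card + ((X ∩ Y).filter (fun e => v ∈ e)).card := by
    unfold deg
    rw [← Finset.card_union_of_disjoint]
    · congr 1
      rw [← Finset.filter_union, Finset.inter_comm, Finset.sdiff_union_inter]
    · apply Finset.disjoint_filter_filter
      rw [Finset.inter_comm]
      exact Finset.disjoint_sdiff_inter Y X
  have h3 : deg (symmDiff X Y) v
      = ((X \ Y).filter (fun e => v ∈ e)).card + ((Y \ X).filter (fun e => v ∈ e)).card := by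
    unfold deg
    rw [← Finset.card_union_of_disjoint]
    · congr 1
      rw [← Finset.filter_union]
      rfl
    · apply Finset.disjoint_filter_filter
      exact Finset.sdiff_disjoint.mono_right (Finset.sdiff_subset)
  rw [h3]
  rw [h1, h2] at h
  simp only [Nat.even_add] at h ⊢
  tauto

/-- Handshake for loopless edge sets. -/
lemma sum_deg [Fintype V] {F : Finset (Sym2 V)} (hloop : ∀ e ∈ F, ¬ e.IsDiag) :
    ∑ v, deg F v = 2 * F.card := by
  have h : ∀ v, deg F v = ∑ e ∈ F, if v ∈ e then 1 else 0 := by
    intro v
    unfold deg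
    rw [Finset.card_filter]
  simp_rw [h]
  rw [Finset.sum_comm]
  have h2 : ∀ e ∈ F, (∑ v, if v ∈ e then 1 else 0) = 2 := by
    intro e he
    rw [← Finset.card_filter]
    have : (univ.filter (fun v => v ∈ e)) = e.toFinset := by
      ext v
      simp [Sym2.mem_toFinset]
    rw [this]
    exact Sym2.card_toFinset_of_not_isDiag e (hloop e he)
  rw [Finset.sum_congr rfl h2]
  simp [mul_comm]

lemma even_of_all_but_one [Fintype V] {X : Finset (Sym2 V)} (hloop : ∀ e ∈ X, ¬ e.IsDiag)
    (w : V) (h : ∀ v, v ≠ w → Even (deg X v)) : Even (deg X w) := by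
  have hs := sum_deg hloop
  have h2 : ∑ v, deg X v = deg X w + ∑ v ∈ univ.erase w, deg X v := by
    rw [Finset.add_sum_erase _ _ (mem_univ w)]
  have h3 : Even (∑ v ∈ univ.erase w, deg X v) := by
    apply Finset.even_sum
    intro v hv
    exact h v (Finset.ne_of_mem_erase hv)
  have h4 : Even (deg X w + ∑ v ∈ univ.erase w, deg X v) := by
    rw [← h2, hs]
    exact even_two_mul _
  exact (Nat.even_add.mp h4).mpr h3

/-- Pigeonhole: a large fibre of the odd-degree map produces even subsets. -/
lemma exists_fibre [Fintype V] (F : Finset (Sym2 V)) (hne : (verts F).Nonempty) (n : ℕ)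
    (h : 2 ^ ((verts F).card - 1) * n < 2 ^ F.card) :
    ∃ W : Finset V, ∃ w ∈ verts F, n <
      (F.powerset.filter (fun Y => ((verts F).erase w).filter (fun v => Odd (deg Y v)) = W)).card := by
  obtain ⟨w, hw⟩ := hne
  have hmaps : ∀ Y ∈ F.powerset, ((verts F).erase w).filter (fun v => Odd (deg Y v))
      ∈ ((verts F).erase w).powerset := by
    intro Y _
    rw [Finset.mem_powerset]
    exact Finset.filter_subset _ _
  have hcard : ((verts F).erase w).powerset.card * n < F.powerset.card := by
    rw [Finset.card_powerset, Finset.card_powerset, Finset.card_erase_of_mem hw]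
    exact h
  obtain ⟨W, _, hW⟩ := Finset.exists_lt_card_fiber_of_mul_lt_card_of_maps_to hmaps hcard
  exact ⟨W, w, hw, hW⟩

lemma loopless_subset {F X : Finset (Sym2 V)} (hloop : ∀ e ∈ F, ¬ e.IsDiag) (h : X ⊆ F) :
    ∀ e ∈ X, ¬ e.IsDiag := fun e he => hloop e (h he)

lemma symmDiff_subset' {X Y F : Finset (Sym2 V)} (hX : X ⊆ F) (hY : Y ⊆ F) :
    symmDiff X Y ⊆ F := by
  intro e he
  rw [Finset.mem_symmDiff] at he
  rcases he with h | h
  · exact hX h.1
  · exact hY h.1

/-- Two members of one fibre give an even subset. -/
lemma even_of_fibre [Fintype V] {F : Finset (Sym2 V)} (hloop : ∀ e ∈ F, ¬ e.IsDiag) {w : V}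
    {Y0 Y1 : Finset (Sym2 V)} (h0 : Y0 ⊆ F) (h1 : Y1 ⊆ F)
    (h : ((verts F).erase w).filter (fun v => Odd (deg Y0 v))
       = ((verts F).erase w).filter (fun v => Odd (deg Y1 v))) :
    IsEvenSet (symmDiff Y0 Y1) := by
  have hsub := symmDiff_subset' h0 h1
  have hmain : ∀ v, v ≠ w → Even (deg (symmDiff Y0 Y1) v) := by
    intro v hv
    by_cases hvF : v ∈ verts F
    · apply deg_symmDiff_even
      have hm : v ∈ (verts F).erase w := Finset.mem_erase.mpr ⟨hv, hvF⟩
      have h' := Finset.ext_iff.mp h v
      simp only [mem_filter, hm, true_and] at h'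
      rw [← Nat.not_odd_iff_even, ← Nat.not_odd_iff_even, h']
    · have : deg (symmDiff Y0 Y1) v = 0 := by
        by_contra hne
        have hpos : 0 < deg (symmDiff Y0 Y1) v := Nat.pos_of_ne_zero hne
        rw [deg_pos_iff, mem_verts] at hpos
        obtain ⟨e, he, hve⟩ := hpos
        exact hvF (mem_verts.mpr ⟨e, hsub he, hve⟩)
      rw [this]
      exact Even.zero
  intro v
  by_cases hv : v = w
  · rw [hv]
    exact even_of_all_but_one (loopless_subset hloop hsub) w hmain
  · exact hmain v hv

lemma verts_nonempty_of_nonempty {F : Finset (Sym2 V)} (h : F.Nonempty) : (verts F).Nonempty := by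
  obtain ⟨e, he⟩ := h
  induction e using Sym2.ind with
  | _ a b => exact ⟨a, mem_verts.mpr ⟨s(a, b), he, by simp⟩⟩

/-- An edge set with at least as many edges as vertices has a nonempty even subset. -/
lemma exists_even_subset [Fintype V] {F : Finset (Sym2 V)} (hloop : ∀ e ∈ F, ¬ e.IsDiag)
    (hne : F.Nonempty) (hc : (verts F).card ≤ F.card) :
    ∃ X, X ⊆ F ∧ X.Nonempty ∧ IsEvenSet X := by
  have hV := verts_nonempty_of_nonempty hne
  have hpos : 1 ≤ (verts F).card := Finset.card_pos.mpr hV
  have h : 2 ^ ((verts F).card - 1) * 1 < 2 ^ F.card := by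
    rw [mul_one]
    exact Nat.pow_lt_pow_right (by norm_num) (by omega)
  obtain ⟨W, w, _, hfib⟩ := exists_fibre F hV 1 h
  obtain ⟨Y0, hY0, Y1, hY1, hne01⟩ := Finset.one_lt_card.mp hfib
  simp only [mem_filter, mem_powerset] at hY0 hY1
  refine ⟨symmDiff Y0 Y1, symmDiff_subset' hY0.1 hY1.1, ?_, ?_⟩
  · rw [Finset.nonempty_iff_ne_empty]
    intro h0
    exact hne01 (symmDiff_eq_bot.mp h0)
  · exact even_of_fibre hloop hY0.1 hY1.1 (hY0.2.trans hY1.2.symm)

/-- With one more edge than vertices there are two different nonempty even subsets. -/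
lemma exists_two_even_subsets [Fintype V] {F : Finset (Sym2 V)} (hloop : ∀ e ∈ F, ¬ e.IsDiag)
    (hne : F.Nonempty) (hc : (verts F).card + 1 ≤ F.card) (C : Finset (Sym2 V)) :
    ∃ X, X ⊆ F ∧ X.Nonempty ∧ IsEvenSet X ∧ X ≠ C := by
  have hV := verts_nonempty_of_nonempty hne
  have hpos : 1 ≤ (verts F).card := Finset.card_pos.mpr hV
  have h : 2 ^ ((verts F).card - 1) * 2 < 2 ^ F.card := by
    rw [← pow_succ]
    exact Nat.pow_lt_pow_right (by norm_num) (by omega)
  obtain ⟨W, w, _, hfib⟩ := exists_fibre F hV 2 h
  obtain ⟨Y0, hY0, Y1, hY1, Y2, hY2, h01, h02, h12⟩ := Finset.two_lt_card.mp hfib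
  simp only [mem_filter, mem_powerset] at hY0 hY1 hY2
  have hX1 : IsEvenSet (symmDiff Y0 Y1) :=
    even_of_fibre hloop hY0.1 hY1.1 (hY0.2.trans hY1.2.symm)
  have hX2 : IsEvenSet (symmDiff Y0 Y2) :=
    even_of_fibre hloop hY0.1 hY2.1 (hY0.2.trans hY2.2.symm)
  have hne1 : (symmDiff Y0 Y1).Nonempty := by
    rw [Finset.nonempty_iff_ne_empty]
    intro h0
    exact h01 (symmDiff_eq_bot.mp h0)
  have hne2 : (symmDiff Y0 Y2).Nonempty := by
    rw [Finset.nonempty_iff_ne_empty]
    intro h0
    exact h02 (symmDiff_eq_bot.mp h0)
  by_cases hC : symmDiff Y0 Y1 = C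
  · refine ⟨symmDiff Y0 Y2, symmDiff_subset' hY0.1 hY2.1, hne2, hX2, ?_⟩
    intro h2
    apply h12
    have : symmDiff Y0 Y1 = symmDiff Y0 Y2 := hC.trans h2.symm
    exact symmDiff_right_injective _ this
  · exact ⟨symmDiff Y0 Y1, symmDiff_subset' hY0.1 hY1.1, hne1, hX1, hC⟩

/-- Existence of a shortest even subset. -/
lemma exists_shortest [Fintype V] {F : Finset (Sym2 V)} (hloop : ∀ e ∈ F, ¬ e.IsDiag)
    (hne : F.Nonempty) (hc : (verts F).card ≤ F.card) : ∃ C, IsShortest C F := by
  obtain ⟨X0, h1, h2, h3⟩ := exists_even_subset hloop hne hc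
  set S := F.powerset.filter (fun X => X.Nonempty ∧ IsEvenSet X) with hS
  have hSne : S.Nonempty := ⟨X0, by simp [hS, h1, h2, h3]⟩
  obtain ⟨C, hC, hmin⟩ := Finset.exists_min_image S Finset.card hSne
  simp only [hS, mem_filter, mem_powerset] at hC
  refine ⟨C, hC.1, hC.2.1, hC.2.2, ?_⟩
  intro X hXF hXne hXe
  exact hmin X (by simp [hS, hXF, hXne, hXe])

/-- The basic inequality for a shortest even subset and another even subset. -/
lemma shortest_key {C F X : Finset (Sym2 V)} (hC : IsShortest C F) (hXF : X ⊆ F)
    (hXne : X.Nonempty) (hXe : IsEvenSet X) (hne : X ≠ C) :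
    C.card ≤ 2 * (X \ C).card := by
  obtain ⟨hCF, _, hCe, hmin⟩ := hC
  have h1 := hmin X hXF hXne hXe
  have hsd : (symmDiff X C).Nonempty := by
    rw [Finset.nonempty_iff_ne_empty]
    intro h0
    exact hne (symmDiff_eq_bot.mp h0)
  have hsdeven : IsEvenSet (symmDiff X C) := by
    intro v
    apply deg_symmDiff_even
    exact ⟨fun _ => hCe v, fun _ => hXe v⟩
  have h2 := hmin (symmDiff X C) (symmDiff_subset' hXF hCF) hsd hsdeven
  have h3 : (symmDiff X C).card = (X \ C).card + (C \ X).card := by
    rw [← Finset.card_union_of_disjoint]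
    · rfl
    · exact Finset.sdiff_disjoint.mono_right Finset.sdiff_subset
  have h4 : (X \ C).card + (X ∩ C).card = X.card := Finset.card_sdiff_add_card_inter X C
  have h5 : (C \ X).card + (C ∩ X).card = C.card := Finset.card_sdiff_add_card_inter C X
  rw [Finset.inter_comm] at h5
  omega

lemma isShortest_self {C F : Finset (Sym2 V)} (hC : IsShortest C F) : IsShortest C C := by
  obtain ⟨hCF, hne, hCe, hmin⟩ := hC
  exact ⟨subset_rfl, hne, hCe, fun X hX => hmin X (hX.trans hCF)⟩

/-- A shortest even subset is connected. -/
lemma shortest_conn {C F : Finset (Sym2 V)} (hC : IsShortest C F) : Conn C := by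
  obtain ⟨hCF, hne, hCe, hmin⟩ := hC
  refine ⟨hne, ?_⟩
  intro A hAC hAne hAC'
  by_contra hno
  push_neg at hno
  -- `A` would be a smaller even set
  have hAe : IsEvenSet A := by
    intro v
    by_cases hv : ∃ e ∈ A, v ∈ e
    · obtain ⟨e, he, hve⟩ := hv
      have : deg A v = deg C v := by
        unfold deg
        congr 1
        ext e'
        simp only [mem_filter]
        constructor
        · rintro ⟨h1, h2⟩
          exact ⟨hAC h1, h2⟩
        · rintro ⟨h1, h2⟩
          refine ⟨?_, h2⟩
          by_contra h3
          exact hno e he e' h1 h3 ⟨v, hve, h2⟩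
      rw [this]
      exact hCe v
    · have : deg A v = 0 := by
        unfold deg
        rw [Finset.card_eq_zero, Finset.filter_eq_empty_iff]
        intro e he hve
        exact hv ⟨e, he, hve⟩
      rw [this]
      exact Even.zero
  have hle := hmin A (hAC.trans hCF) hAne hAe
  exact hAC' (Finset.eq_of_subset_of_card_le hAC hle)

/-- A vertex on an even loopless set has a second edge. -/
lemma exists_second_edge {C : Finset (Sym2 V)} (hCe : IsEvenSet C) {e : Sym2 V} (he : e ∈ C)
    {v : V} (hv : v ∈ e) : ∃ e' ∈ C, e' ≠ e ∧ v ∈ e' := by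
  have hpos : 0 < deg C v := deg_pos_iff.mpr (mem_verts.mpr ⟨e, he, hv⟩)
  have h2 : 1 < deg C v := by
    obtain ⟨k, hk⟩ := hCe v
    omega
  unfold deg at h2
  obtain ⟨x, hx, y, hy, hxy⟩ := Finset.one_lt_card.mp h2
  simp only [mem_filter] at hx hy
  by_cases hxe : x = e
  · refine ⟨y, hy.1, ?_, hy.2⟩
    rw [← hxe]
    exact fun h => hxy h.symm
  · exact ⟨x, hx.1, hxe, hx.2⟩

lemma three_le_card {C : Finset (Sym2 V)} (hloop : ∀ e ∈ C, ¬ e.IsDiag) (hne : C.Nonempty)
    (hCe : IsEvenSet C) : 3 ≤ C.card := by
  obtain ⟨e, he⟩ := hne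
  induction e using Sym2.ind with
  | _ a b =>
    have hab : a ≠ b := by
      have := hloop _ he
      simpa using this
    obtain ⟨e1, he1, hne1, ha1⟩ := exists_second_edge hCe he (v := a) (by simp)
    obtain ⟨e2, he2, hne2, hb2⟩ := exists_second_edge hCe he (v := b) (by simp)
    have h12 : e1 ≠ e2 := by
      rintro rfl
      apply hne1
      exact ((Sym2.mem_and_mem_iff hab).mp ⟨ha1, hb2⟩)
    have : 2 < C.card := by
      rw [Finset.two_lt_card]
      exact ⟨s(a, b), he, e1, he1, e2, he2, hne1.symm, hne2.symm, h12⟩
    omega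

/-! ### Paths and cycles as lists -/

/-- Edges along a vertex list. -/
def pathEdges : List V → Finset (Sym2 V)
  | [] => ∅
  | [_] => ∅
  | a :: b :: l => insert s(a, b) (pathEdges (b :: l))

/-- Final vertex of the list `a :: l`. -/
def endpt : V → List V → V
  | a, [] => a
  | _, b :: l => endpt b l

/-- Edges of the closed list `a :: l`. -/
def cycEdges (a : V) (l : List V) : Finset (Sym2 V) :=
  insert s(endpt a l, a) (pathEdges (a :: l))

lemma verts_pathEdges_sub {a : V} {l : List V} {e : Sym2 V} {v : V}
    (he : e ∈ pathEdges (a :: l)) (hv : v ∈ e) : v ∈ a :: l := by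
  induction l generalizing a with
  | nil => simp [pathEdges] at he
  | cons b l ih =>
    simp only [pathEdges, mem_insert] at he
    rcases he with rfl | he
    · simp only [Sym2.mem_iff] at hv
      rcases hv with rfl | rfl <;> simp
    · have := ih he
      exact List.mem_cons_of_mem _ this

lemma endpt_mem (a : V) (l : List V) : endpt a l ∈ a :: l := by
  induction l generalizing a with
  | nil => simp [endpt]
  | cons b l ih =>
    simp only [endpt]
    exact List.mem_cons_of_mem _ (ih b)

/-- Exact degrees along a path. -/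
lemma deg_pathEdges {a : V} {l : List V} (h : (a :: l).Nodup) (v : V) :
    deg (pathEdges (a :: l)) v + (if v = a then 1 else 0) + (if v = endpt a l then 1 else 0)
      = 2 * (if v ∈ a :: l then 1 else 0) := by
  induction l generalizing a with
  | nil =>
    simp only [pathEdges, endpt, deg, filter_empty, card_empty, zero_add, List.mem_singleton]
    by_cases hv : v = a <;> simp [hv]
  | cons b l ih =>
    have hab : a ≠ b := by
      have := (List.nodup_cons.mp h).1
      intro hab
      apply this
      simp [hab]
    have ha : a ∉ b :: l := (List.nodup_cons.mp h).1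
    have hih := ih (List.nodup_cons.mp h).2
    have hnm : s(a, b) ∉ pathEdges (b :: l) := by
      intro hm
      exact ha (verts_pathEdges_sub hm (by simp))
    have hpe : pathEdges (a :: b :: l) = insert s(a, b) (pathEdges (b :: l)) := rfl
    have hen : endpt a (b :: l) = endpt b l := rfl
    rw [hpe, deg_insert hnm, hen]
    by_cases hva : v = a
    · subst hva
      have hvb : v ∉ b :: l := ha
      have hend : v ≠ endpt b l := by
        intro h1
        exact ha (h1 ▸ endpt_mem b l)
      have hvb' : v ≠ b := hab
      have e1 : (if v ∈ s(v, b) then 1 else 0) = 1 := if_pos (by simp)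
      have e2 : (if v = v then 1 else 0) = 1 := if_pos rfl
      have e3 : (if v = endpt b l then 1 else 0) = 0 := if_neg hend
      have e4 : (if v ∈ v :: b :: l then 1 else 0) = 1 := if_pos (by simp)
      have e5 : (if v ∈ b :: l then 1 else 0) = 0 := if_neg hvb
      have e6 : (if v = b then 1 else 0) = 0 := if_neg hvb'
      rw [e5, e6, e3] at hih
      rw [e1, e2, e3, e4]
      omega
    · by_cases hvb : v = b
      · subst hvb
        have e1 : (if v ∈ s(a, v) then 1 else 0) = 1 := if_pos (by simp)
        have e2 : (if v = a then 1 else 0) = 0 := if_neg hva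
        have e4 : (if v ∈ a :: v :: l then 1 else 0) = 1 := if_pos (by simp)
        have e5 : (if v ∈ v :: l then 1 else 0) = 1 := if_pos (by simp)
        have e6 : (if v = v then 1 else 0) = 1 := if_pos rfl
        rw [e5, e6] at hih
        rw [e1, e2, e4]
        omega
      · have hmem : (v ∈ a :: b :: l) ↔ (v ∈ b :: l) := by
          simp [hva]
        have hve : v ∉ s(a, b) := by
          simp [hva, hvb]
        have e1 : (if v ∈ s(a, b) then 1 else 0) = 0 := if_neg hve
        have e2 : (if v = a then 1 else 0) = 0 := if_neg hva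
        have e6 : (if v = b then 1 else 0) = 0 := if_neg hvb
        have e7 : (if v ∈ a :: b :: l then 1 else 0) = (if v ∈ b :: l then 1 else 0) :=
          if_congr hmem rfl rfl
        rw [e6] at hih
        rw [e1, e2, e7]
        omega

lemma card_pathEdges {a : V} {l : List V} (h : (a :: l).Nodup) :
    (pathEdges (a :: l)).card = l.length := by
  induction l generalizing a with
  | nil => simp [pathEdges]
  | cons b l ih =>
    have ha : a ∉ b :: l := (List.nodup_cons.mp h).1
    have hnm : s(a, b) ∉ pathEdges (b :: l) := by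
      intro hm
      exact ha (verts_pathEdges_sub hm (by simp))
    simp only [pathEdges]
    rw [Finset.card_insert_of_notMem hnm, ih (List.nodup_cons.mp h).2]
    simp

/-- The closing edge is new when the list has at least three vertices. -/
lemma closing_notMem {a : V} {l : List V} (h : (a :: l).Nodup) (hl : 2 ≤ l.length) :
    s(endpt a l, a) ∉ pathEdges (a :: l) := by
  intro hm
  have hd := deg_pathEdges h a
  -- the head has degree one in the path
  match l, hl, h, hm, hd with
  | b :: c :: l', _, h, hm, hd =>
    have ha : a ∉ b :: c :: l' := (List.nodup_cons.mp h).1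
    have hend : a ≠ endpt a (b :: c :: l') := by
      intro h1
      have h2 : endpt a (b :: c :: l') = endpt b (c :: l') := rfl
      rw [h2] at h1
      exact ha (h1 ▸ endpt_mem b (c :: l'))
    have hpe : pathEdges (a :: b :: c :: l') = insert s(a, b) (pathEdges (b :: c :: l')) := rfl
    rw [hpe, mem_insert] at hm
    rcases hm with hm | hm
    · -- closing edge equals the first edge: then the end is `b`
      have hb : endpt b (c :: l') = b := by
        have h3 : endpt a (b :: c :: l') = endpt b (c :: l') := rfl
        rw [h3] at hm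
        rcases Sym2.eq_iff.mp hm with ⟨h4, _⟩ | ⟨h4, h5⟩
        · exact absurd h4.symm (by
            intro h6
            exact ha (h6 ▸ endpt_mem b (c :: l')))
        · exact h4
      -- `b` would occur twice in the list
      have h5 : (b :: c :: l').Nodup := (List.nodup_cons.mp h).2
      have h6 : b ∉ c :: l' := (List.nodup_cons.mp h5).1
      have h7 : endpt b (c :: l') ∈ c :: l' := by
        have : ∀ (x y : V) (r : List V), endpt x (y :: r) ∈ y :: r := by
          intro x y r
          exact endpt_mem y r
        exact this b c l'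
      rw [hb] at h7
      exact h6 h7
    · have h5 : a ∈ b :: c :: l' := verts_pathEdges_sub hm (by simp)
      exact ha h5

/-- Degrees on a closed list: two on the list, zero elsewhere. -/
lemma deg_cycEdges {a : V} {l : List V} (h : (a :: l).Nodup) (hl : 2 ≤ l.length) (v : V) :
    deg (cycEdges a l) v = 2 * (if v ∈ a :: l then 1 else 0) := by
  unfold cycEdges
  rw [deg_insert (closing_notMem h hl)]
  have hd := deg_pathEdges h v
  have hne : endpt a l ≠ a := by
    match l, hl, h with
    | b :: c :: l', _, h =>
      have ha : a ∉ b :: c :: l' := (List.nodup_cons.mp h).1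
      intro h1
      have h2 : endpt a (b :: c :: l') = endpt b (c :: l') := rfl
      rw [h2] at h1
      exact ha (h1 ▸ endpt_mem b (c :: l'))
  have hmem : (v ∈ s(endpt a l, a)) ↔ (v = endpt a l ∨ v = a) := by
    simp [Sym2.mem_iff]
  by_cases h1 : v = a
  · have h2 : v ≠ endpt a l := by
      rw [h1]
      exact hne.symm
    simp only [hmem, h1, h2] at hd ⊢
    simp_all
  · by_cases h2 : v = endpt a l
    · simp only [hmem, h1, h2] at hd ⊢
      simp_all
    · simp only [hmem, h1, h2, or_self, if_false] at hd ⊢
      simp at hd ⊢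
      omega

lemma cycEdges_even {a : V} {l : List V} (h : (a :: l).Nodup) (hl : 2 ≤ l.length) :
    IsEvenSet (cycEdges a l) := by
  intro v
  rw [deg_cycEdges h hl]
  exact even_two_mul _

lemma card_cycEdges {a : V} {l : List V} (h : (a :: l).Nodup) (hl : 2 ≤ l.length) :
    (cycEdges a l).card = (a :: l).length := by
  unfold cycEdges
  rw [Finset.card_insert_of_notMem (closing_notMem h hl), card_pathEdges h]
  simp

lemma verts_cycEdges {a : V} {l : List V} (h : (a :: l).Nodup) (hl : 2 ≤ l.length) {v : V} :
    v ∈ verts (cycEdges a l) ↔ v ∈ a :: l := by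
  rw [← deg_pos_iff, deg_cycEdges h hl]
  split_ifs with hm <;> simp [hm]

lemma card_verts_cycEdges {a : V} {l : List V} (h : (a :: l).Nodup) (hl : 2 ≤ l.length) :
    (verts (cycEdges a l)).card = (a :: l).length := by
  have : verts (cycEdges a l) = (a :: l).toFinset := by
    ext v
    rw [verts_cycEdges h hl, List.mem_toFinset]
  rw [this, List.toFinset_card_of_nodup h]

lemma pathEdges_append_sub (x : List V) (y : V) (z : List V) (a : V) :
    pathEdges (a :: (x ++ [y])) ⊆ pathEdges (a :: (x ++ y :: z)) := by
  induction x generalizing a with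
  | nil =>
    simp only [List.nil_append, pathEdges]
    intro e he
    simp only [mem_insert] at he ⊢
    rcases he with he | he
    · left; exact he
    · simp at he
  | cons b x ih =>
    simp only [List.cons_append, pathEdges]
    exact Finset.insert_subset_insert _ (ih b)

lemma endpt_append_singleton (x : List V) (y a : V) : endpt a (x ++ [y]) = y := by
  induction x generalizing a with
  | nil => simp [endpt]
  | cons b x ih =>
    simp only [List.cons_append, endpt]
    exact ih b

/-- Longest paths: a path can be extended until its head has no new neighbour. -/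
lemma exists_maximal_path [Fintype V] {C : Finset (Sym2 V)} :
    ∀ (n : ℕ) (a b : V) (l : List V), Fintype.card V - (b :: l).length = n →
      (a :: b :: l).Nodup → pathEdges (a :: b :: l) ⊆ C →
      ∃ (a' b' : V) (l' : List V), (a' :: b' :: l').Nodup ∧ pathEdges (a' :: b' :: l') ⊆ C ∧
        ∀ y, y ∉ a' :: b' :: l' → s(a', y) ∉ C := by
  intro n
  induction n using Nat.strong_induction_on with
  | _ n ih =>
    intro a b l hn hnd hsub
    by_cases hex : ∃ y, y ∉ a :: b :: l ∧ s(a, y) ∈ C
    · obtain ⟨y, hy, hyC⟩ := hex
      have hnd' : (y :: a :: b :: l).Nodup := List.nodup_cons.mpr ⟨hy, hnd⟩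
      have hlen : (y :: a :: b :: l).length ≤ Fintype.card V := hnd'.length_le_card
      have hsub' : pathEdges (y :: a :: b :: l) ⊆ C := by
        have : pathEdges (y :: a :: b :: l) = insert s(y, a) (pathEdges (a :: b :: l)) := rfl
        rw [this]
        apply Finset.insert_subset
        · rw [Sym2.eq_swap]
          exact hyC
        · exact hsub
      have hlt : Fintype.card V - (a :: b :: l).length < n := by
        rw [← hn]
        simp only [List.length_cons] at hlen ⊢
        omega
      exact ih _ hlt y a (b :: l) rfl hnd' hsub'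
    · push_neg at hex
      exact ⟨a, b, l, hnd, hsub, hex⟩

/-- A shortest even subset is the edge set of a closed list. -/
lemma shortest_is_cycle [Fintype V] {C F : Finset (Sym2 V)} (hloop : ∀ e ∈ F, ¬ e.IsDiag)
    (hC : IsShortest C F) :
    ∃ (a : V) (l : List V), (a :: l).Nodup ∧ 2 ≤ l.length ∧ cycEdges a l = C := by
  obtain ⟨hCF, hne, hCe, hmin⟩ := hC
  obtain ⟨e0, he0⟩ := hne
  induction e0 using Sym2.ind with
  | _ a0 b0 =>
    have hab0 : a0 ≠ b0 := by
      have := hloop _ (hCF he0)
      simpa using this
    have hnd0 : ([a0, b0] : List V).Nodup := by simp [hab0]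
    have hsub0 : pathEdges ([a0, b0] : List V) ⊆ C := by
      simp only [pathEdges]
      intro x hx
      simp only [mem_insert] at hx
      rcases hx with rfl | hx
      · exact he0
      · simp at hx
    obtain ⟨a, b, l, hnd, hsub, hmax⟩ := exists_maximal_path _ a0 b0 [] rfl hnd0 hsub0
    have hedge : s(a, b) ∈ C := by
      apply hsub
      simp [pathEdges]
    obtain ⟨e, heC, hene, hae⟩ := exists_second_edge hCe hedge (v := a) (by simp)
    obtain ⟨y, rfl⟩ := Sym2.mem_iff_exists.mp hae
    have hya : y ≠ a := by
      intro h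
      have := hloop _ (hCF heC)
      simp [h] at this
    have hyb : y ≠ b := by
      intro h
      apply hene
      rw [h]
    have hymem : y ∈ a :: b :: l := by
      by_contra hn
      exact hmax y hn heC
    have hyl : y ∈ l := by
      simp only [List.mem_cons] at hymem
      rcases hymem with h | h | h
      · exact absurd h hya
      · exact absurd h hyb
      · exact h
    obtain ⟨x, z, rfl⟩ := List.append_of_mem hyl
    -- the list closing at `y`
    set q : List V := b :: (x ++ [y]) with hq
    have hndq : (a :: q).Nodup := by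
      have hsl : (a :: q).Sublist (a :: b :: (x ++ y :: z)) := by
        apply List.Sublist.cons_cons
        apply List.Sublist.cons_cons
        have : x ++ [y] = x ++ [y] ++ [] := by simp
        have h2 : x ++ y :: z = x ++ [y] ++ z := by simp
        rw [h2]
        exact List.sublist_append_left _ _
      exact hnd.sublist hsl
    have hlenq : 2 ≤ q.length := by
      simp [hq]
    have hsubq : cycEdges a q ⊆ C := by
      unfold cycEdges
      apply Finset.insert_subset
      · have hend : endpt a q = y := by
          rw [hq]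
          show endpt b (x ++ [y]) = y
          exact endpt_append_singleton x y b
        rw [hend, Sym2.eq_swap]
        exact heC
      · refine Finset.Subset.trans ?_ hsub
        have h1 : pathEdges (a :: q) = insert s(a, b) (pathEdges (b :: (x ++ [y]))) := rfl
        have h2 : pathEdges (a :: b :: (x ++ y :: z))
            = insert s(a, b) (pathEdges (b :: (x ++ y :: z))) := rfl
        rw [h1, h2]
        exact Finset.insert_subset_insert _ (pathEdges_append_sub x y z b)
    have hnonempty : (cycEdges a q).Nonempty := ⟨s(endpt a q, a), Finset.mem_insert_self _ _⟩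
    have heven := cycEdges_even hndq hlenq
    have hle := hmin _ (hsubq.trans hCF) hnonempty heven
    exact ⟨a, q, hndq, hlenq, Finset.eq_of_subset_of_card_le hsubq hle⟩

/-- A shortest even subset has no chord in `F`. -/
lemma shortest_no_chord [Fintype V] {C F : Finset (Sym2 V)} (hloop : ∀ e ∈ F, ¬ e.IsDiag)
    (hC : IsShortest C F) {e : Sym2 V} (he : e ∈ F) (heC : e ∉ C)
    (hsub : ∀ v ∈ e, v ∈ verts C) : False := by
  obtain ⟨a, l, hnd, hl, hCeq⟩ := shortest_is_cycle hloop hC
  have hthree : 3 ≤ C.card := three_le_card (loopless_subset hloop hC.1) hC.2.1 hC.2.2.1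
  set F' := insert e C with hF'
  have hF'F : F' ⊆ F := Finset.insert_subset he hC.1
  have hvF' : verts F' = verts C := by
    apply Finset.Subset.antisymm
    · intro v hv
      rw [mem_verts] at hv
      obtain ⟨x, hx, hvx⟩ := hv
      rw [hF', mem_insert] at hx
      rcases hx with rfl | hx
      · exact hsub v hvx
      · exact mem_verts.mpr ⟨x, hx, hvx⟩
    · intro v hv
      rw [mem_verts] at hv ⊢
      obtain ⟨x, hx, hvx⟩ := hv
      exact ⟨x, Finset.mem_insert_of_mem hx, hvx⟩
  have hcard : (verts F').card + 1 ≤ F'.card := by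
    rw [hvF', hF', Finset.card_insert_of_notMem heC]
    rw [← hCeq, card_cycEdges hnd hl, card_verts_cycEdges hnd hl]
  have hF'ne : F'.Nonempty := ⟨e, by simp [hF']⟩
  obtain ⟨X, hXF', hXne, hXe, hXC⟩ :=
    exists_two_even_subsets (loopless_subset hloop hF'F) hF'ne hcard C
  have hk := shortest_key hC (hXF'.trans hF'F) hXne hXe hXC
  have hsd : (X \ C).card ≤ 1 := by
    have : X \ C ⊆ {e} := by
      intro x hx
      simp only [mem_sdiff] at hx
      have := hXF' hx.1
      rw [hF', mem_insert] at this
      rcases this with rfl | h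
      · simp
      · exact absurd h hx.2
    simpa using card_le_card this
  omega

/-- Leaves of an edge set. -/
def leaves [Fintype V] (F : Finset (Sym2 V)) : Finset V := univ.filter (fun v => deg F v = 1)

/-- Edge count from a leaf count. -/
lemma two_card_ge [Fintype V] {F : Finset (Sym2 V)} (hloop : ∀ e ∈ F, ¬ e.IsDiag) :
    2 * (verts F).card ≤ 2 * F.card + (leaves F).card := by
  rw [← sum_deg hloop]
  have h1 : ∀ v, (if v ∈ verts F then 2 else 0) ≤ deg F v + (if v ∈ leaves F then 1 else 0) := by
    intro v
    by_cases hv : v ∈ verts F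
    · have hpos : 0 < deg F v := deg_pos_iff.mpr hv
      by_cases hd : deg F v = 1
      · have : v ∈ leaves F := by simp [leaves, hd]
        simp [hv, this, hd]
      · have : v ∉ leaves F := by simp [leaves, hd]
        simp only [hv, if_true, this, if_false]
        omega
    · simp [hv]
  have h2 : ∑ v, (if v ∈ verts F then 2 else 0) = 2 * (verts F).card := by
    rw [← Finset.sum_filter]
    simp [Finset.filter_mem_eq_inter, mul_comm]
  have h3 : ∑ v, (if v ∈ leaves F then 1 else 0) = (leaves F).card := by
    rw [← Finset.sum_filter]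
    simp [Finset.filter_mem_eq_inter]
  calc 2 * (verts F).card = ∑ v, (if v ∈ verts F then 2 else 0) := h2.symm
    _ ≤ ∑ v, (deg F v + (if v ∈ leaves F then 1 else 0)) := Finset.sum_le_sum (fun v _ => h1 v)
    _ = ∑ v, deg F v + (leaves F).card := by rw [Finset.sum_add_distrib, h3]

/-- At most one leaf gives a shortest even subset. -/
lemma exists_shortest_of_leaves [Fintype V] {F : Finset (Sym2 V)} (hloop : ∀ e ∈ F, ¬ e.IsDiag)
    (hne : F.Nonempty) (hl : (leaves F).card ≤ 1) : ∃ C, IsShortest C F := by
  apply exists_shortest hloop hne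
  have := two_card_ge hloop
  omega

/-- A leaf excludes being a shortest even subset of itself. -/
lemma ne_of_leaf [Fintype V] {C F : Finset (Sym2 V)} (hC : IsShortest C F)
    (hl : (leaves F).Nonempty) : C ≠ F := by
  rintro rfl
  obtain ⟨v, hv⟩ := hl
  simp only [leaves, mem_filter, mem_univ, true_and] at hv
  have := hC.2.2.1 v
  rw [hv] at this
  exact absurd this (by decide)

/-- Ear bound: in a connected leafless set, what lies outside a shortest even subset is large. -/
lemma ear_bound [Fintype V] {C F : Finset (Sym2 V)} (hloop : ∀ e ∈ F, ¬ e.IsDiag)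
    (hconn : Conn F) (hl : leaves F = ∅) (hC : IsShortest C F) (hne : C ≠ F) :
    C.card ≤ 2 * (F \ C).card := by
  have hCF := hC.1
  have hCne := hC.2.1
  obtain ⟨e, heC, e', he'F, he'C, ht⟩ := hconn.2 C hCF hCne hne
  obtain ⟨v, hve, hve'⟩ := ht
  -- the vertex `v` has degree at least three in `F`
  have hd2 : 2 ≤ deg C v := by
    have hpos : 0 < deg C v := deg_pos_iff.mpr (mem_verts.mpr ⟨e, heC, hve⟩)
    obtain ⟨k, hk⟩ := hC.2.2.1 v
    omega
  have hd3 : 3 ≤ deg F v := by
    have hnm : e' ∉ C := he'C
    have hsub : insert e' C ⊆ F := Finset.insert_subset he'F hCF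
    have := deg_le_of_subset hsub v
    rw [deg_insert hnm] at this
    simp only [hve', if_true] at this
    omega
  -- handshake with all degrees at least two
  have hsum : 2 * (verts F).card + 1 ≤ 2 * F.card := by
    rw [← sum_deg hloop]
    have h1 : ∀ u, (if u ∈ verts F then 2 else 0) + (if u = v then 1 else 0) ≤ deg F u := by
      intro u
      by_cases hu : u ∈ verts F
      · have hpos : 0 < deg F u := deg_pos_iff.mpr hu
        have hnot1 : deg F u ≠ 1 := by
          intro h1
          have : u ∈ leaves F := by simp [leaves, h1]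
          rw [hl] at this
          simp at this
        by_cases huv : u = v
        · subst huv
          simp only [hu, if_true]
          omega
        · simp only [hu, if_true, huv, if_false]
          omega
      · have huv : u ≠ v := by
          rintro rfl
          exact hu (mem_verts.mpr ⟨e', he'F, hve'⟩)
        simp [hu, huv]
    have h2 : ∑ u, (if u ∈ verts F then 2 else 0) = 2 * (verts F).card := by
      rw [← Finset.sum_filter]
      simp [Finset.filter_mem_eq_inter, mul_comm]
    have h3 : ∑ u, (if u = v then 1 else 0) = 1 := by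
      simp
    calc 2 * (verts F).card + 1
        = ∑ u, ((if u ∈ verts F then 2 else 0) + (if u = v then 1 else 0)) := by
          rw [Finset.sum_add_distrib, h2, h3]
      _ ≤ ∑ u, deg F u := Finset.sum_le_sum (fun u _ => h1 u)
  have hc : (verts F).card + 1 ≤ F.card := by omega
  have hFne : F.Nonempty := hconn.1
  obtain ⟨X, hXF, hXne, hXe, hXC⟩ := exists_two_even_subsets hloop hFne hc C
  have hk := shortest_key hC hXF hXne hXe hXC
  have : (X \ C).card ≤ (F \ C).card := card_le_card (Finset.sdiff_subset_sdiff hXF subset_rfl)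
  omega

/-- Any connected set with at least two edges contains a connected pair. -/
lemma exists_pair {F : Finset (Sym2 V)} (hconn : Conn F) (h2 : 2 ≤ F.card) :
    ∃ c, c ⊆ F ∧ c.card = 2 ∧ Conn c := by
  obtain ⟨e, he⟩ := hconn.1
  have hne : ({e} : Finset (Sym2 V)) ≠ F := by
    intro h
    rw [← h] at h2
    simp at h2
  obtain ⟨e1, he1, e', he', hne', ht⟩ :=
    hconn.2 {e} (by simpa using he) (by simp) hne
  simp only [mem_singleton] at he1 hne'
  subst he1
  refine ⟨{e1, e'}, ?_, ?_, ?_⟩
  · intro x hx
    simp only [mem_insert, mem_singleton] at hx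
    rcases hx with rfl | rfl
    · exact he
    · exact he'
  · rw [Finset.card_pair]
    exact fun h => hne' h.symm
  · refine ⟨⟨e1, by simp⟩, ?_⟩
    intro A hA hAne hAne'
    obtain ⟨x, hx⟩ := hAne
    have hxmem := hA hx
    simp only [mem_insert, mem_singleton] at hxmem
    rcases hxmem with rfl | rfl
    · -- `A` has `e1`, lacks `e'`
      have : e' ∉ A := by
        intro h
        apply hAne'
        apply Finset.Subset.antisymm hA
        intro y hy
        simp only [mem_insert, mem_singleton] at hy
        rcases hy with rfl | rfl <;> assumption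
      exact ⟨x, hx, e', by simp, this, ht⟩
    · have : e1 ∉ A := by
        intro h
        apply hAne'
        apply Finset.Subset.antisymm hA
        intro y hy
        simp only [mem_insert, mem_singleton] at hy
        rcases hy with rfl | rfl <;> assumption
      exact ⟨x, hx, e1, by simp, this, ht.symm⟩

end Vale.Agent.Lib.P050
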