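import Mathlib

/-!
Iterated integrals over coordinates of a product space, by lists of coordinates.
-/

open MeasureTheory Function
open scoped Classical

noncomputable section

namespace Vale.Agent.Lib.P050

variable {V Ω : Type*} [MeasurableSpace Ω] (μ : Measure Ω)

/-- Integrate out the coordinates of a list, one after another. -/
def iter : List V → ((V → Ω) → ℝ) → (V → Ω) → ℝ
  | [], f, x => f x
  | v :: l, f, x => ∫ y, iter l f (update x v y) ∂μ

@[simp] lemma iter_nil (f : (V → Ω) → ℝ) (x : V → Ω) : iter μ [] f x = f x := rfl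

lemma iter_cons (v : V) (l : List V) (f : (V → Ω) → ℝ) (x : V → Ω) :
    iter μ (v :: l) f x = ∫ y, iter μ l f (update x v y) ∂μ := rfl

/-- Bounded measurable functions. -/
structure BM (f : (V → Ω) → ℝ) : Prop where
  meas : Measurable f
  bdd : ∃ C, ∀ x, |f x| ≤ C

section Basic

variable [IsProbabilityMeasure μ]

lemma integrable_of_bdd {X : Type*} [MeasurableSpace X] {ν : Measure X} [IsFiniteMeasure ν]
    {g : X → ℝ} (hm : Measurable g) {C : ℝ} (hb : ∀ y, |g y| ≤ C) : Integrable g ν :=
  Integrable.of_bound hm.aestronglyMeasurable C (Filter.Eventually.of_forall (fun y => by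
    simpa using hb y))

lemma abs_integral_le {X : Type*} [MeasurableSpace X] {ν : Measure X} [IsProbabilityMeasure ν]
    {g : X → ℝ} {C : ℝ} (hb : ∀ y, |g y| ≤ C) : |∫ y, g y ∂ν| ≤ C := by
  have h := norm_integral_le_of_norm_le_const (μ := ν) (f := g) (C := C)
    (Filter.Eventually.of_forall (fun y => by simpa using hb y))
  simpa using h

lemma BM.comp_update {f : (V → Ω) → ℝ} (h : BM f) (v : V) :
    Measurable (fun p : (V → Ω) × Ω => f (update p.1 v p.2)) :=
  h.meas.comp measurable_update'

lemma measurable_integral_of_uncurry {X Y : Type*} [MeasurableSpace X] [MeasurableSpace Y]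
    {ν : Measure Y} [SFinite ν] {g : X → Y → ℝ} (hg : Measurable (uncurry g)) :
    Measurable (fun x => ∫ y, g x y ∂ν) :=
  (StronglyMeasurable.integral_prod_right (f := g) hg.stronglyMeasurable).measurable

lemma BM.step {f : (V → Ω) → ℝ} (h : BM f) (v : V) :
    BM (fun x => ∫ y, f (update x v y) ∂μ) := by
  obtain ⟨C, hC⟩ := h.bdd
  refine ⟨?_, C, fun x => abs_integral_le (fun y => hC _)⟩
  exact measurable_integral_of_uncurry (g := fun x y => f (update x v y)) (h.comp_update v)

lemma BM.iter {f : (V → Ω) → ℝ} (h : BM f) (l : List V) : BM (iter μ l f) := by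
  induction l with
  | nil => exact h
  | cons v l ih => exact ih.step μ v

lemma BM.integrable_update {f : (V → Ω) → ℝ} (h : BM f) (x : V → Ω) (v : V) :
    Integrable (fun y => f (update x v y)) μ := by
  obtain ⟨C, hC⟩ := h.bdd
  refine integrable_of_bdd ?_ (fun y => hC _)
  exact h.meas.comp (measurable_update x)

lemma BM.const (c : ℝ) : BM (fun _ : V → Ω => c) :=
  ⟨measurable_const, |c|, fun _ => le_rfl⟩

lemma BM.add {f g : (V → Ω) → ℝ} (hf : BM f) (hg : BM g) : BM (fun x => f x + g x) := by
  obtain ⟨C, hC⟩ := hf.bdd
  obtain ⟨D, hD⟩ := hg.bdd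
  refine ⟨hf.meas.add hg.meas, C + D, fun x => ?_⟩
  exact (abs_add_le _ _).trans (add_le_add (hC x) (hD x))

lemma BM.mul {f g : (V → Ω) → ℝ} (hf : BM f) (hg : BM g) : BM (fun x => f x * g x) := by
  obtain ⟨C, hC⟩ := hf.bdd
  obtain ⟨D, hD⟩ := hg.bdd
  refine ⟨hf.meas.mul hg.meas, C * D, fun x => ?_⟩
  rw [abs_mul]
  exact mul_le_mul (hC x) (hD x) (abs_nonneg _) ((abs_nonneg _).trans (hC x))

lemma BM.abs {f : (V → Ω) → ℝ} (hf : BM f) : BM (fun x => |f x|) := by
  obtain ⟨C, hC⟩ := hf.bdd
  refine ⟨hf.meas.abs, C, fun x => ?_⟩
  rw [abs_abs]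
  exact hC x

lemma BM.prod {ι : Type*} (s : Finset ι) (f : ι → (V → Ω) → ℝ) (h : ∀ i ∈ s, BM (f i)) :
    BM (fun x => ∏ i ∈ s, f i x) := by
  induction s using Finset.induction_on with
  | empty => simpa using BM.const (V := V) (Ω := Ω) 1
  | @insert a s ha ih =>
    have : (fun x => ∏ i ∈ insert a s, f i x) = fun x => f a x * ∏ i ∈ s, f i x := by
      funext x
      rw [Finset.prod_insert ha]
    rw [this]
    exact (h a (Finset.mem_insert_self a s)).mul
      (ih (fun i hi => h i (Finset.mem_insert_of_mem hi)))

lemma BM.sum {ι : Type*} (s : Finset ι) (f : ι → (V → Ω) → ℝ) (h : ∀ i ∈ s, BM (f i)) :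
    BM (fun x => ∑ i ∈ s, f i x) := by
  induction s using Finset.induction_on with
  | empty => simpa using BM.const (V := V) (Ω := Ω) 0
  | @insert a s ha ih =>
    have : (fun x => ∑ i ∈ insert a s, f i x) = fun x => f a x + ∑ i ∈ s, f i x := by
      funext x
      rw [Finset.sum_insert ha]
    rw [this]
    exact (h a (Finset.mem_insert_self a s)).add
      (ih (fun i hi => h i (Finset.mem_insert_of_mem hi)))

/-- Swapping two adjacent coordinates. -/
lemma iter_swap {f : (V → Ω) → ℝ} (hf : BM f) (u v : V) (l : List V) (x : V → Ω) :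
    iter μ (u :: v :: l) f x = iter μ (v :: u :: l) f x := by
  simp only [iter_cons]
  have hg := hf.iter μ l
  by_cases huv : u = v
  · subst huv
    simp only [update_idem]
  · have hcomm : ∀ a b, update (update x u a) v b = update (update x v b) u a := by
      intro a b
      exact update_comm huv a b x
    simp only [hcomm]
    apply integral_integral_swap (f := fun a b => iter μ l f (update (update x v b) u a))
    obtain ⟨C, hC⟩ := hg.bdd
    refine integrable_of_bdd ?_ (C := C) (fun y => hC _)
    have h1 : Measurable (fun p : Ω × Ω => update (update x v p.2) u p.1) := by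
      have h2 : Measurable (fun p : Ω × Ω => (update x v p.2, p.1)) :=
        ((measurable_update x).comp measurable_snd).prodMk measurable_fst
      exact (measurable_update' (a := u)).comp h2
    exact hg.meas.comp h1

/-- Iterated integrals are unchanged by permuting the list. -/
lemma iter_perm {f : (V → Ω) → ℝ} (hf : BM f) {l₁ l₂ : List V} (h : l₁.Perm l₂) :
    iter μ l₁ f = iter μ l₂ f := by
  induction h with
  | nil => rfl
  | cons v _ ih =>
    funext x
    simp only [iter_cons, ih]
  | swap u v l =>
    funext x
    exact iter_swap μ hf v u l x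
  | trans _ _ ih1 ih2 => exact ih1.trans ih2

omit [IsProbabilityMeasure μ] in
lemma iter_append (l₁ l₂ : List V) (f : (V → Ω) → ℝ) :
    iter μ (l₁ ++ l₂) f = iter μ l₁ (iter μ l₂ f) := by
  induction l₁ with
  | nil => rfl
  | cons v l ih =>
    funext x
    simp only [List.cons_append, iter_cons, ih]

/-- `f` does not depend on the coordinate `v`. -/
def Indep (f : (V → Ω) → ℝ) (v : V) : Prop := ∀ x y, f (update x v y) = f x

omit [IsProbabilityMeasure μ] in
/-- Integrating preserves independence of other coordinates. -/
lemma iter_indep_of_indep {f : (V → Ω) → ℝ} {u : V} (h : Indep f u) (l : List V) :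
    Indep (iter μ l f) u := by
  induction l with
  | nil => exact h
  | cons v l ih =>
    intro x a
    simp only [iter_cons]
    by_cases huv : u = v
    · subst huv
      simp only [update_idem]
    · have : ∀ y, update (update x u a) v y = update (update x v y) u a := fun y =>
        update_comm huv a y x
      simp only [this]
      congr 1
      funext y
      exact ih _ _

omit [IsProbabilityMeasure μ] in
/-- After integrating over `v`, the function does not depend on `v`. -/
lemma iter_head_indep (f : (V → Ω) → ℝ) (v : V) (l : List V) : Indep (iter μ (v :: l) f) v := by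
  intro x a
  simp only [iter_cons, update_idem]

lemma iter_indep_of_mem {f : (V → Ω) → ℝ} (hf : BM f) {v : V} {l : List V} (hv : v ∈ l) :
    Indep (iter μ l f) v := by
  rw [iter_perm μ hf (List.perm_cons_erase hv)]
  exact iter_head_indep μ f v _

omit [IsProbabilityMeasure μ] in
/-- A factor not depending on the integration variables comes out. -/
lemma iter_mul_left {f g : (V → Ω) → ℝ} {l : List V} (hg : ∀ v ∈ l, Indep g v) (x : V → Ω) :
    iter μ l (fun z => g z * f z) x = g x * iter μ l f x := by
  induction l generalizing x with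
  | nil => rfl
  | cons v l ih =>
    simp only [iter_cons]
    have h1 : ∀ y, iter μ l (fun z => g z * f z) (update x v y)
        = g x * iter μ l f (update x v y) := by
      intro y
      rw [ih (fun w hw => hg w (List.mem_cons_of_mem _ hw))]
      rw [hg v List.mem_cons_self]
    simp only [h1]
    exact integral_const_mul _ _

/-- Integrating a function which does not depend on the integration variables. -/
lemma iter_of_indep {g : (V → Ω) → ℝ} {l : List V} (hg : ∀ v ∈ l, Indep g v) (x : V → Ω) :
    iter μ l g x = g x := by
  induction l generalizing x with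
  | nil => rfl
  | cons v l ih =>
    simp only [iter_cons]
    have h1 : ∀ y, iter μ l g (update x v y) = g x := by
      intro y
      rw [ih (fun w hw => hg w (List.mem_cons_of_mem _ hw))]
      exact hg v List.mem_cons_self _ _
    simp only [h1]
    simp

lemma iter_const (c : ℝ) (l : List V) (x : V → Ω) : iter μ l (fun _ => c) x = c :=
  iter_of_indep μ (fun _ _ _ _ => rfl) x

lemma iter_add {f g : (V → Ω) → ℝ} (hf : BM f) (hg : BM g) (l : List V) (x : V → Ω) :
    iter μ l (fun z => f z + g z) x = iter μ l f x + iter μ l g x := by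
  induction l generalizing x with
  | nil => rfl
  | cons v l ih =>
    simp only [iter_cons, ih]
    exact integral_add ((hf.iter μ l).integrable_update μ x v) ((hg.iter μ l).integrable_update μ x v)

omit [IsProbabilityMeasure μ] in
lemma iter_const_mul (c : ℝ) (f : (V → Ω) → ℝ) (l : List V) (x : V → Ω) :
    iter μ l (fun z => c * f z) x = c * iter μ l f x :=
  iter_mul_left μ (g := fun _ => c) (fun _ _ _ _ => rfl) x

lemma iter_sum {ι : Type*} (s : Finset ι) (f : ι → (V → Ω) → ℝ) (h : ∀ i ∈ s, BM (f i))
    (l : List V) (x : V → Ω) :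
    iter μ l (fun z => ∑ i ∈ s, f i z) x = ∑ i ∈ s, iter μ l (f i) x := by
  induction s using Finset.induction_on with
  | empty =>
    simpa using iter_const μ (0 : ℝ) l x
  | @insert a s ha ih =>
    have h1 : (fun z => ∑ i ∈ insert a s, f i z) = fun z => f a z + ∑ i ∈ s, f i z := by
      funext z
      rw [Finset.sum_insert ha]
    have hs : BM (fun z => ∑ i ∈ s, f i z) :=
      BM.sum s f (fun i hi => h i (Finset.mem_insert_of_mem hi))
    rw [h1, iter_add μ (h a (Finset.mem_insert_self a s)) hs, Finset.sum_insert ha,
      ih (fun i hi => h i (Finset.mem_insert_of_mem hi))]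

lemma iter_mono {f g : (V → Ω) → ℝ} (hf : BM f) (hg : BM g) (hle : ∀ x, f x ≤ g x) (l : List V)
    (x : V → Ω) : iter μ l f x ≤ iter μ l g x := by
  induction l generalizing x with
  | nil => exact hle x
  | cons v l ih =>
    simp only [iter_cons]
    exact integral_mono ((hf.iter μ l).integrable_update μ x v)
      ((hg.iter μ l).integrable_update μ x v) (fun y => ih _)

lemma iter_abs_le {f : (V → Ω) → ℝ} {C : ℝ} (hC : ∀ x, |f x| ≤ C) (l : List V) (x : V → Ω) :
    |iter μ l f x| ≤ C := by
  induction l generalizing x with
  | nil => exact hC x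
  | cons v l ih =>
    simp only [iter_cons]
    exact abs_integral_le (fun y => ih _)

lemma abs_iter_le_iter_abs {f : (V → Ω) → ℝ} (hf : BM f) (l : List V) (x : V → Ω) :
    |iter μ l f x| ≤ iter μ l (fun z => |f z|) x := by
  induction l generalizing x with
  | nil => exact le_rfl
  | cons v l ih =>
    simp only [iter_cons]
    calc |∫ y, iter μ l f (update x v y) ∂μ|
        ≤ ∫ y, |iter μ l f (update x v y)| ∂μ := abs_integral_le_integral_abs
      _ ≤ _ := integral_mono ((hf.iter μ l).abs.integrable_update μ x v)
            ((hf.abs.iter μ l).integrable_update μ x v) (fun y => ih _)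

omit [IsProbabilityMeasure μ] in
/-- Congruence: only the values at points agreeing off the list matter. -/
lemma iter_congr_off {f g : (V → Ω) → ℝ} {l : List V} {x : V → Ω}
    (h : ∀ z : V → Ω, (∀ u, u ∉ l → z u = x u) → f z = g z) :
    iter μ l f x = iter μ l g x := by
  induction l generalizing x with
  | nil => exact h x (fun _ _ => rfl)
  | cons v l ih =>
    simp only [iter_cons]
    congr 1
    funext y
    apply ih
    intro z hz
    apply h
    intro u hu
    simp only [List.mem_cons, not_or] at hu
    rw [hz u hu.2, update_of_ne hu.1]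

end Basic

section Total

variable [Fintype V] [IsProbabilityMeasure μ]

/-- The list of all vertices. -/
def allV (V : Type*) [Fintype V] : List V := (Finset.univ : Finset V).toList

lemma mem_allV (v : V) : v ∈ allV V := by simp [allV]

lemma allV_nodup : (allV V).Nodup := Finset.nodup_toList _

/-- The total integral, evaluated at a chosen point. -/
def total (f : (V → Ω) → ℝ) : ℝ :=
  iter μ (allV V) f (fun _ => Classical.choice (nonempty_of_isProbabilityMeasure μ))

omit [Fintype V] [IsProbabilityMeasure μ] in
/-- A function independent of the coordinates of a list only sees the other coordinates. -/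
lemma indep_list_eq {g : (V → Ω) → ℝ} {l : List V} (h : ∀ v ∈ l, Indep g v) {x x' : V → Ω}
    (hx : ∀ u, u ∉ l → x u = x' u) : g x = g x' := by
  induction l generalizing x with
  | nil =>
    have : x = x' := funext (fun u => hx u (by simp))
    rw [this]
  | cons v l ih =>
    rw [← h v List.mem_cons_self x (x' v)]
    apply ih (fun w hw => h w (List.mem_cons_of_mem _ hw))
    intro u hu
    by_cases huv : u = v
    · subst huv
      simp
    · rw [update_of_ne huv]
      apply hx
      simp [huv, hu]

omit [IsProbabilityMeasure μ] in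
lemma indep_all_const {g : (V → Ω) → ℝ} (h : ∀ v, Indep g v) (x x' : V → Ω) : g x = g x' :=
  indep_list_eq (l := allV V) (fun v _ => h v) (fun u hu => absurd (mem_allV u) hu)

lemma iter_all_eq {f : (V → Ω) → ℝ} (hf : BM f) (x : V → Ω) :
    iter μ (allV V) f x = total μ f :=
  indep_all_const (fun v => iter_indep_of_mem μ hf (mem_allV v)) _ _

lemma total_iter_single {f : (V → Ω) → ℝ} (hf : BM f) (v : V) :
    total μ (iter μ [v] f) = total μ f := by
  have hperm : (allV V).Perm ((allV V).erase v ++ [v]) :=
    (List.perm_cons_erase (mem_allV v)).trans (List.perm_append_singleton _ _).symm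
  unfold total
  have hf' : BM (iter μ [v] f) := hf.iter μ [v]
  rw [iter_perm μ hf hperm, iter_perm μ hf' hperm, iter_append, iter_append]
  congr 1
  funext x
  exact iter_of_indep μ (fun w hw => by
    simp only [List.mem_singleton] at hw
    subst hw
    exact iter_head_indep μ f w []) x

/-- Partial integration does not change the total integral. -/
lemma total_iter {f : (V → Ω) → ℝ} (hf : BM f) (l : List V) :
    total μ (iter μ l f) = total μ f := by
  induction l with
  | nil => rfl
  | cons v l ih =>
    have h1 : iter μ (v :: l) f = iter μ [v] (iter μ l f) := iter_append μ [v] l f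
    rw [h1, total_iter_single μ (hf.iter μ l) v, ih]

lemma total_const (c : ℝ) : total μ (fun _ : V → Ω => c) = c := iter_const μ c _ _

lemma total_add {f g : (V → Ω) → ℝ} (hf : BM f) (hg : BM g) :
    total μ (fun z => f z + g z) = total μ f + total μ g := iter_add μ hf hg _ _

lemma total_sum {ι : Type*} (s : Finset ι) (f : ι → (V → Ω) → ℝ) (h : ∀ i ∈ s, BM (f i)) :
    total μ (fun z => ∑ i ∈ s, f i z) = ∑ i ∈ s, total μ (f i) := iter_sum μ s f h _ _

lemma total_const_mul (c : ℝ) (f : (V → Ω) → ℝ) :
    total μ (fun z => c * f z) = c * total μ f := iter_const_mul μ c f _ _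

lemma total_mono {f g : (V → Ω) → ℝ} (hf : BM f) (hg : BM g) (hle : ∀ x, f x ≤ g x) :
    total μ f ≤ total μ g := iter_mono μ hf hg hle _ _

lemma total_abs_le {f : (V → Ω) → ℝ} {C : ℝ} (hC : ∀ x, |f x| ≤ C) : |total μ f| ≤ C :=
  iter_abs_le μ hC _ _

lemma abs_total_le {f : (V → Ω) → ℝ} (hf : BM f) : |total μ f| ≤ total μ (fun z => |f z|) :=
  abs_iter_le_iter_abs μ hf _ _

/-- Integrating a function of one coordinate. -/
lemma total_coord {h : Ω → ℝ} (hm : Measurable h) {C : ℝ} (hb : ∀ y, |h y| ≤ C) (z : V) :
    total μ (fun x => h (x z)) = ∫ y, h y ∂μ := by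
  have hBM : BM (fun x : V → Ω => h (x z)) :=
    ⟨hm.comp (measurable_pi_apply z), C, fun x => hb _⟩
  rw [← total_iter μ hBM [z]]
  have : iter μ [z] (fun x : V → Ω => h (x z)) = fun _ => ∫ y, h y ∂μ := by
    funext x
    simp only [iter_cons, iter_nil, update_self]
  rw [this, total_const]

/-- Factorisation of the total integral over independent factors. -/
lemma total_mul_of_indep {f g : (V → Ω) → ℝ} (hf : BM f) (hg : BM g) (A : Finset V)
    (hfA : ∀ v, v ∉ A → Indep f v) (hgA : ∀ v ∈ A, Indep g v) :
    total μ (fun z => f z * g z) = total μ f * total μ g := by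
  set l := A.toList with hl
  have hmem : ∀ v, v ∈ l ↔ v ∈ A := fun v => Finset.mem_toList
  have hfg : BM (fun z => f z * g z) := hf.mul hg
  have hφ : ∀ v, Indep (iter μ l f) v := by
    intro v
    by_cases hv : v ∈ A
    · exact iter_indep_of_mem μ hf ((hmem v).mpr hv)
    · exact iter_indep_of_indep μ (hfA v hv) l
  have hφval : ∀ x, iter μ l f x = total μ f := by
    intro x
    have h1 := total_iter μ hf l
    unfold total at h1 ⊢
    rw [← h1]
    rw [iter_of_indep μ (fun v _ => hφ v)]
    exact indep_all_const hφ _ _
  rw [← total_iter μ hfg l]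
  have h2 : iter μ l (fun z => f z * g z) = fun x => total μ f * g x := by
    funext x
    have h3 : (fun z => f z * g z) = fun z => g z * f z := by
      funext z
      ring
    rw [h3, iter_mul_left μ (fun v hv => hgA v ((hmem v).mp hv)), hφval]
    ring
  rw [h2, total_const_mul]

end Total

end Vale.Agent.Lib.P050
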