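import Vale.Agent.Lib.P050.Even

/-!
The polymer recursion for the partition function of an edge-weighted system,
ratio bounds of Dobrushin type and the telescoping lower bound for the logarithm.
-/

open Finset
open scoped Classical

noncomputable section

namespace Vale.Agent.Lib.P050

variable {V : Type*}

/-- Edges of `E` with both ends in `S`. -/
def inside (E : Finset (Sym2 V)) (S : Finset V) : Finset (Sym2 V) :=
  E.filter (fun e => ∀ v ∈ e, v ∈ S)

/-- The partition function. -/
def Z (τ : Finset (Sym2 V) → ℝ) (E : Finset (Sym2 V)) (S : Finset V) : ℝ :=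
  ∑ F ∈ (inside E S).powerset, τ F

/-- Connected edge sets inside `S` through `v`. -/
def polysAt (E : Finset (Sym2 V)) (S : Finset V) (v : V) : Finset (Finset (Sym2 V)) :=
  (polys (inside E S)).filter (fun F => v ∈ verts F)

/-- `A` is a union of connected components of `F`. -/
def ClosedIn (A F : Finset (Sym2 V)) : Prop :=
  A ⊆ F ∧ ∀ e ∈ A, ∀ e' ∈ F, Touch e e' → e' ∈ A

/-- Edges of `F` at `v`. -/
def seeds (F : Finset (Sym2 V)) (v : V) : Finset (Sym2 V) := F.filter (fun e => v ∈ e)

/-- The component of `F` at `v`. -/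
def comp (F : Finset (Sym2 V)) (v : V) : Finset (Sym2 V) :=
  F.filter (fun e => ∀ A, ClosedIn A F → seeds F v ⊆ A → e ∈ A)

lemma mem_inside {E : Finset (Sym2 V)} {S : Finset V} {e : Sym2 V} :
    e ∈ inside E S ↔ e ∈ E ∧ ∀ v ∈ e, v ∈ S := by
  simp [inside]

lemma inside_subset (E : Finset (Sym2 V)) (S : Finset V) : inside E S ⊆ E :=
  Finset.filter_subset _ _

lemma inside_mono (E : Finset (Sym2 V)) {S T : Finset V} (h : S ⊆ T) :
    inside E S ⊆ inside E T := by
  intro e he
  rw [mem_inside] at he ⊢
  exact ⟨he.1, fun v hv => h (he.2 v hv)⟩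

lemma inside_univ [Fintype V] (E : Finset (Sym2 V)) : inside E univ = E := by
  ext e
  simp [mem_inside]

lemma verts_subset_of_inside {E F : Finset (Sym2 V)} {S : Finset V} (h : F ⊆ inside E S) :
    verts F ⊆ S := by
  intro v hv
  rw [mem_verts] at hv
  obtain ⟨e, he, hve⟩ := hv
  exact (mem_inside.mp (h he)).2 v hve

lemma subset_inside_iff {E F : Finset (Sym2 V)} {S : Finset V} :
    F ⊆ inside E S ↔ F ⊆ E ∧ verts F ⊆ S := by
  constructor
  · intro h
    exact ⟨h.trans (inside_subset E S), verts_subset_of_inside h⟩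
  · rintro ⟨h1, h2⟩ e he
    rw [mem_inside]
    exact ⟨h1 he, fun v hv => h2 (mem_verts.mpr ⟨e, he, hv⟩)⟩

lemma comp_subset (F : Finset (Sym2 V)) (v : V) : comp F v ⊆ F := Finset.filter_subset _ _

lemma seeds_subset_comp (F : Finset (Sym2 V)) (v : V) : seeds F v ⊆ comp F v := by
  intro e he
  have heF : e ∈ F := (Finset.mem_filter.mp he).1
  simp only [comp, mem_filter]
  exact ⟨heF, fun A _ hs => hs he⟩

lemma comp_closed (F : Finset (Sym2 V)) (v : V) : ClosedIn (comp F v) F := by
  refine ⟨comp_subset F v, ?_⟩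
  intro e he e' he' ht
  simp only [comp, mem_filter] at he ⊢
  exact ⟨he', fun A hA hs => hA.2 e (he.2 A hA hs) e' he' ht⟩

lemma comp_min {A F : Finset (Sym2 V)} {v : V} (hA : ClosedIn A F) (hs : seeds F v ⊆ A) :
    comp F v ⊆ A := by
  intro e he
  exact (Finset.mem_filter.mp he).2 A hA hs

lemma mem_verts_comp {F : Finset (Sym2 V)} {v : V} (hv : v ∈ verts F) : v ∈ verts (comp F v) := by
  rw [mem_verts] at hv ⊢
  obtain ⟨e, he, hve⟩ := hv
  exact ⟨e, seeds_subset_comp F v (Finset.mem_filter.mpr ⟨he, hve⟩), hve⟩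

lemma comp_conn {F : Finset (Sym2 V)} {v : V} (hv : v ∈ verts F) : Conn (comp F v) := by
  have hcl := comp_closed F v
  have hv' := hv
  rw [mem_verts] at hv'
  obtain ⟨e0, he0, hve0⟩ := hv'
  have hs0 : e0 ∈ seeds F v := Finset.mem_filter.mpr ⟨he0, hve0⟩
  refine ⟨⟨e0, seeds_subset_comp F v hs0⟩, ?_⟩
  intro A hA hAne hAneq
  by_contra hcon
  push_neg at hcon
  -- `A` is closed in `F`
  have hAcl : ClosedIn A F := by
    refine ⟨hA.trans hcl.1, ?_⟩
    intro e he e' he' ht
    by_contra hn
    exact hcon e he e' (hcl.2 e (hA he) e' he' ht) hn ht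
  -- so is the rest
  have hBcl : ClosedIn (comp F v \ A) F := by
    refine ⟨Finset.sdiff_subset.trans hcl.1, ?_⟩
    intro e he e' he' ht
    simp only [mem_sdiff] at he ⊢
    have h1 : e' ∈ comp F v := hcl.2 e he.1 e' he' ht
    refine ⟨h1, ?_⟩
    intro h2
    exact he.2 (hAcl.2 e' h2 e (hcl.1 he.1) ht.symm)
  by_cases hsA : e0 ∈ A
  · -- all seeds lie in `A`
    have hss : seeds F v ⊆ A := by
      intro e he
      have he' := Finset.mem_filter.mp he
      exact hAcl.2 e0 hsA e he'.1 ⟨v, hve0, he'.2⟩
    exact hAneq (Finset.Subset.antisymm hA (comp_min hAcl hss))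
  · -- all seeds lie in the rest
    have hss : seeds F v ⊆ comp F v \ A := by
      intro e he
      have he' := Finset.mem_filter.mp he
      have h0 : e0 ∈ comp F v \ A :=
        Finset.mem_sdiff.mpr ⟨seeds_subset_comp F v hs0, hsA⟩
      exact hBcl.2 e0 h0 e he'.1 ⟨v, hve0, he'.2⟩
    have hsub := comp_min hBcl hss
    obtain ⟨x, hx⟩ := hAne
    have := hsub (hA hx)
    exact (Finset.mem_sdiff.mp this).2 hx

/-- An edge outside the component shares no vertex with it. -/
lemma not_mem_verts_comp {F : Finset (Sym2 V)} {v : V} {e : Sym2 V} (he : e ∈ F)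
    (hne : e ∉ comp F v) {u : V} (hu : u ∈ e) : u ∉ verts (comp F v) := by
  intro h
  rw [mem_verts] at h
  obtain ⟨x, hx, hux⟩ := h
  exact hne ((comp_closed F v).2 x hx e he ⟨u, hux, hu⟩)

lemma disjoint_edges_of_disjoint_verts {P G : Finset (Sym2 V)}
    (h : Disjoint (verts P) (verts G)) : Disjoint P G := by
  rw [Finset.disjoint_left]
  intro e heP heG
  induction e using Sym2.ind with
  | _ a b =>
    have h1 : a ∈ s(a, b) := Sym2.mem_mk_left a b
    exact Finset.disjoint_left.mp h (mem_verts.mpr ⟨_, heP, h1⟩)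
      (mem_verts.mpr ⟨_, heG, h1⟩)

/-- The component of a connected piece in a vertex-disjoint union. -/
lemma comp_union {P G : Finset (Sym2 V)} {v : V} (hP : Conn P) (hv : v ∈ verts P)
    (hd : Disjoint (verts P) (verts G)) : comp (P ∪ G) v = P := by
  have hclosed : ClosedIn P (P ∪ G) := by
    refine ⟨Finset.subset_union_left, ?_⟩
    intro e he e' he' ht
    rw [Finset.mem_union] at he'
    rcases he' with h | h
    · exact h
    · obtain ⟨u, hu, hu'⟩ := ht
      exact absurd (mem_verts.mpr ⟨e', h, hu'⟩)
        (Finset.disjoint_left.mp hd (mem_verts.mpr ⟨e, he, hu⟩))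
  have hseeds : seeds (P ∪ G) v ⊆ P := by
    intro e he
    have he' := Finset.mem_filter.mp he
    rcases Finset.mem_union.mp he'.1 with h | h
    · exact h
    · exact absurd (mem_verts.mpr ⟨e, h, he'.2⟩) (Finset.disjoint_left.mp hd hv)
  have h1 : comp (P ∪ G) v ⊆ P := comp_min hclosed hseeds
  apply Finset.Subset.antisymm h1
  by_contra hcon
  have hne' : comp (P ∪ G) v ≠ P := by
    intro h
    apply hcon
    rw [h]
  have hv' := hv
  rw [mem_verts] at hv'
  obtain ⟨e0, he0, hve0⟩ := hv'
  have hs0 : e0 ∈ comp (P ∪ G) v :=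
    seeds_subset_comp _ v (Finset.mem_filter.mpr ⟨Finset.mem_union_left _ he0, hve0⟩)
  obtain ⟨e, he, e', he', hnot, ht⟩ := hP.2 _ h1 ⟨e0, hs0⟩ hne'
  exact hnot ((comp_closed (P ∪ G) v).2 e he e' (Finset.mem_union_left _ he') ht)

/-- Multiplicativity over vertex-disjoint edge sets. -/
def IsMult (τ : Finset (Sym2 V) → ℝ) (E : Finset (Sym2 V)) : Prop :=
  ∀ F G, F ⊆ E → G ⊆ E → Disjoint (verts F) (verts G) → τ (F ∪ G) = τ F * τ G

/-- The fibre sum over a fixed component. -/
lemma fibre_sum {τ : Finset (Sym2 V) → ℝ} {E : Finset (Sym2 V)} (hmul : IsMult τ E)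
    {S : Finset V} {v : V} {P : Finset (Sym2 V)} (hP : P ∈ polysAt E S v) :
    ∑ F ∈ ((inside E S).powerset.filter (fun F => v ∈ verts F)).filter (fun F => comp F v = P),
        τ F = τ P * Z τ E (S \ verts P) := by
  simp only [polysAt, mem_filter, mem_polys] at hP
  obtain ⟨⟨hPS, hPc⟩, hv⟩ := hP
  unfold Z
  rw [Finset.mul_sum]
  refine Finset.sum_nbij' (fun F => F \ P) (fun G => P ∪ G) ?_ ?_ ?_ ?_ ?_
  · -- forward map lands in the right place
    intro F hF
    simp only [mem_filter, mem_powerset] at hF
    obtain ⟨⟨hFS, hvF⟩, hcomp⟩ := hF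
    rw [mem_powerset]
    intro e he
    rw [mem_sdiff] at he
    rw [mem_inside]
    refine ⟨inside_subset E S (hFS he.1), ?_⟩
    intro u hu
    rw [mem_sdiff]
    refine ⟨(mem_inside.mp (hFS he.1)).2 u hu, ?_⟩
    have := not_mem_verts_comp (v := v) he.1 (by rw [hcomp]; exact he.2) hu
    rwa [hcomp] at this
  · -- backward map lands in the right place
    intro G hG
    rw [mem_powerset] at hG
    have hGverts : verts G ⊆ S \ verts P := verts_subset_of_inside hG
    have hd : Disjoint (verts P) (verts G) := by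
      rw [Finset.disjoint_left]
      intro u hu hu'
      exact (Finset.mem_sdiff.mp (hGverts hu')).2 hu
    simp only [mem_filter, mem_powerset]
    refine ⟨⟨?_, ?_⟩, comp_union hPc hv hd⟩
    · apply Finset.union_subset hPS
      exact hG.trans (inside_mono E Finset.sdiff_subset)
    · rw [mem_verts] at hv ⊢
      obtain ⟨e, he, hve⟩ := hv
      exact ⟨e, Finset.mem_union_left _ he, hve⟩
  · -- left inverse
    intro F hF
    simp only [mem_filter, mem_powerset] at hF
    obtain ⟨⟨_, _⟩, hcomp⟩ := hF
    have : P ⊆ F := hcomp ▸ comp_subset F v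
    simp [Finset.union_sdiff_of_subset this]
  · -- right inverse
    intro G hG
    rw [mem_powerset] at hG
    have hGverts : verts G ⊆ S \ verts P := verts_subset_of_inside hG
    have hd : Disjoint (verts P) (verts G) := by
      rw [Finset.disjoint_left]
      intro u hu hu'
      exact (Finset.mem_sdiff.mp (hGverts hu')).2 hu
    have hd2 : Disjoint P G := disjoint_edges_of_disjoint_verts hd
    rw [Finset.union_sdiff_left]
    exact Finset.sdiff_eq_self_of_disjoint hd2.symm
  · -- values
    intro F hF
    simp only [mem_filter, mem_powerset] at hF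
    obtain ⟨⟨hFS, hvF⟩, hcomp⟩ := hF
    have hPF : P ⊆ F := hcomp ▸ comp_subset F v
    have hd : Disjoint (verts P) (verts (F \ P)) := by
      rw [Finset.disjoint_left]
      intro u hu hu'
      rw [mem_verts] at hu'
      obtain ⟨e, he, hue⟩ := hu'
      rw [mem_sdiff] at he
      have := not_mem_verts_comp (v := v) he.1 (by rw [hcomp]; exact he.2) hue
      rw [hcomp] at this
      exact this hu
    have hFE : F ⊆ E := hFS.trans (inside_subset E S)
    have h := hmul P (F \ P) (hPF.trans hFE) (Finset.sdiff_subset.trans hFE) hd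
    rw [← h, Finset.union_sdiff_of_subset hPF]

/-- The recursion for the partition function at a vertex. -/
theorem Z_rec {τ : Finset (Sym2 V) → ℝ} {E : Finset (Sym2 V)} (hmul : IsMult τ E)
    {S : Finset V} {v : V} :
    Z τ E S = Z τ E (S.erase v) + ∑ P ∈ polysAt E S v, τ P * Z τ E (S \ verts P) := by
  unfold Z
  rw [← Finset.sum_filter_add_sum_filter_not (inside E S).powerset (fun F => v ∉ verts F)]
  congr 1
  · -- the edge sets missing `v`
    apply Finset.sum_congr _ (fun _ _ => rfl)
    ext F
    simp only [mem_filter, mem_powerset, subset_inside_iff]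
    constructor
    · rintro ⟨⟨h1, h2⟩, h3⟩
      refine ⟨h1, ?_⟩
      intro u hu
      rw [mem_erase]
      refine ⟨?_, h2 hu⟩
      rintro rfl
      exact h3 hu
    · rintro ⟨h1, h2⟩
      refine ⟨⟨h1, fun u hu => (Finset.mem_erase.mp (h2 hu)).2⟩, ?_⟩
      intro h3
      exact (Finset.mem_erase.mp (h2 h3)).1 rfl
  · -- the edge sets through `v`, by component
    have hfilter : (inside E S).powerset.filter (fun F => ¬ v ∉ verts F)
        = (inside E S).powerset.filter (fun F => v ∈ verts F) := by
      apply Finset.filter_congr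
      intro F _
      simp
    rw [hfilter]
    have hmaps : ∀ F ∈ (inside E S).powerset.filter (fun F => v ∈ verts F),
        comp F v ∈ polysAt E S v := by
      intro F hF
      simp only [mem_filter, mem_powerset] at hF
      simp only [polysAt, mem_filter, mem_polys]
      exact ⟨⟨(comp_subset F v).trans hF.1, comp_conn hF.2⟩, mem_verts_comp hF.2⟩
    rw [← Finset.sum_fiberwise_of_maps_to hmaps]
    apply Finset.sum_congr rfl
    intro P hP
    exact fibre_sum hmul hP

/-- `Z` on the empty vertex set. -/
lemma Z_empty (τ : Finset (Sym2 V) → ℝ) (E : Finset (Sym2 V)) : Z τ E ∅ = τ ∅ := by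
  unfold Z
  have : inside E ∅ = ∅ := by
    ext e
    simp only [mem_inside, notMem_empty, iff_false, not_and]
    intro _ h
    induction e using Sym2.ind with
    | _ a b => exact absurd (h a (by simp)) (by simp)
  rw [this]
  simp

/-- Local ratio bounds on a vertex set. -/
def RatioAt (τ : Finset (Sym2 V) → ℝ) (E : Finset (Sym2 V)) (ρ : ℝ) (S : Finset V) : Prop :=
  0 < Z τ E S ∧ ∀ v ∈ S, Z τ E (S.erase v) ≤ ρ * Z τ E S ∧ Z τ E S ≤ ρ * Z τ E (S.erase v)

/-- Chaining the local ratio bounds. -/
lemma ratio_chain {τ : Finset (Sym2 V) → ℝ} {E : Finset (Sym2 V)} {ρ : ℝ} (hρ : 1 ≤ ρ)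
    {S : Finset V} (h : ∀ T, T ⊆ S → RatioAt τ E ρ T) (D : Finset V) (hD : D ⊆ S) :
    Z τ E (S \ D) ≤ ρ ^ D.card * Z τ E S ∧ Z τ E S ≤ ρ ^ D.card * Z τ E (S \ D) := by
  have hρ0 : 0 < ρ := by linarith
  induction D using Finset.induction_on with
  | empty => simp
  | @insert u D hu ih =>
    have hDS : D ⊆ S := (Finset.insert_subset_iff.mp hD).2
    have huS : u ∈ S := (Finset.insert_subset_iff.mp hD).1
    obtain ⟨ih1, ih2⟩ := ih hDS
    have hT : RatioAt τ E ρ (S \ D) := h _ Finset.sdiff_subset
    have hum : u ∈ S \ D := Finset.mem_sdiff.mpr ⟨huS, hu⟩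
    obtain ⟨h1, h2⟩ := hT.2 u hum
    have heq : S \ insert u D = (S \ D).erase u := by
      ext x
      simp only [mem_sdiff, mem_insert, mem_erase, not_or]
      tauto
    rw [heq, Finset.card_insert_of_notMem hu, pow_succ]
    constructor
    · calc Z τ E ((S \ D).erase u) ≤ ρ * Z τ E (S \ D) := h1
        _ ≤ ρ * (ρ ^ D.card * Z τ E S) := mul_le_mul_of_nonneg_left ih1 hρ0.le
        _ = _ := by ring
    · calc Z τ E S ≤ ρ ^ D.card * Z τ E (S \ D) := ih2
        _ ≤ ρ ^ D.card * (ρ * Z τ E ((S \ D).erase u)) :=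
            mul_le_mul_of_nonneg_left h2 (by positivity)
        _ = _ := by ring

/-- Ratio bounds of Dobrushin type. -/
theorem dobrushin [Fintype V] {τ : Finset (Sym2 V) → ℝ} {E : Finset (Sym2 V)} (hmul : IsMult τ E)
    (hτ0 : 0 < τ ∅) {ρ : ℝ} (hρ : 1 ≤ ρ)
    (hβ : ∀ v, ∑ P ∈ polysAt E univ v, |τ P| * ρ ^ (verts P).card ≤ ρ - 1) :
    ∀ S : Finset V, RatioAt τ E ρ S := by
  have hρ0 : 0 < ρ := by linarith
  intro S
  induction S using Finset.strongInduction with
  | _ S ih =>
    by_cases hSemp : S = ∅
    · subst hSemp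
      refine ⟨?_, ?_⟩
      · rw [Z_empty]; exact hτ0
      · intro v hv
        simp at hv
    · obtain ⟨v0, hv0⟩ := Finset.nonempty_iff_ne_empty.mpr hSemp
      -- the key estimate at any vertex
      have key : ∀ v ∈ S, 0 < Z τ E (S.erase v) ∧
          Z τ E (S.erase v) ≤ ρ * Z τ E S ∧ Z τ E S ≤ ρ * Z τ E (S.erase v) := by
        intro v hv
        set S' := S.erase v with hS'
        have hsub : ∀ T, T ⊆ S' → RatioAt τ E ρ T := by
          intro T hT
          apply ih
          exact lt_of_le_of_lt hT (Finset.erase_ssubset hv)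
        have hZ' : 0 < Z τ E S' := (hsub S' subset_rfl).1
        set X := ∑ P ∈ polysAt E S v, τ P * Z τ E (S \ verts P) with hX
        have hrec : Z τ E S = Z τ E S' + X := Z_rec hmul
        have hXbd : ρ * |X| ≤ (ρ - 1) * Z τ E S' := by
          have hstep : ∀ P ∈ polysAt E S v,
              ρ * |τ P * Z τ E (S \ verts P)| ≤ |τ P| * ρ ^ (verts P).card * Z τ E S' := by
            intro P hP
            simp only [polysAt, mem_filter, mem_polys] at hP
            obtain ⟨⟨hPS, _⟩, hvP⟩ := hP
            have hPverts : verts P ⊆ S := verts_subset_of_inside hPS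
            set D := (verts P).erase v with hD
            have hDS : D ⊆ S' := Finset.erase_subset_erase _ hPverts
            have hSD : S \ verts P = S' \ D := by
              ext x
              simp only [hS', hD, mem_sdiff, mem_erase]
              constructor
              · rintro ⟨h1, h2⟩
                refine ⟨⟨?_, h1⟩, ?_⟩
                · rintro rfl
                  exact h2 hvP
                · rintro ⟨_, h3⟩
                  exact h2 h3
              · rintro ⟨⟨h1, h2⟩, h3⟩
                refine ⟨h2, ?_⟩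
                intro h4
                exact h3 ⟨h1, h4⟩
            have hcard : (verts P).card = D.card + 1 := by
              rw [hD, Finset.card_erase_of_mem hvP]
              have : 0 < (verts P).card := Finset.card_pos.mpr ⟨v, hvP⟩
              omega
            obtain ⟨h1, _⟩ := ratio_chain hρ hsub D hDS
            have hpos : 0 < Z τ E (S \ verts P) := by
              rw [hSD]
              exact (hsub _ Finset.sdiff_subset).1
            rw [abs_mul, abs_of_pos hpos, hcard, pow_succ, ← hSD] at *
            calc ρ * (|τ P| * Z τ E (S \ verts P))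
                ≤ ρ * (|τ P| * (ρ ^ D.card * Z τ E S')) := by
                  apply mul_le_mul_of_nonneg_left _ hρ0.le
                  exact mul_le_mul_of_nonneg_left h1 (abs_nonneg _)
              _ = _ := by ring
          have hsubset : polysAt E S v ⊆ polysAt E univ v := by
            intro P hP
            simp only [polysAt, mem_filter, mem_polys] at hP ⊢
            refine ⟨⟨hP.1.1.trans (inside_mono E (Finset.subset_univ _)), hP.1.2⟩, hP.2⟩
          calc ρ * |X| ≤ ρ * ∑ P ∈ polysAt E S v, |τ P * Z τ E (S \ verts P)| :=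
                mul_le_mul_of_nonneg_left (Finset.abs_sum_le_sum_abs _ _) hρ0.le
            _ = ∑ P ∈ polysAt E S v, ρ * |τ P * Z τ E (S \ verts P)| := by
                rw [Finset.mul_sum]
            _ ≤ ∑ P ∈ polysAt E S v, |τ P| * ρ ^ (verts P).card * Z τ E S' :=
                Finset.sum_le_sum hstep
            _ = (∑ P ∈ polysAt E S v, |τ P| * ρ ^ (verts P).card) * Z τ E S' := by
                rw [Finset.sum_mul]
            _ ≤ (∑ P ∈ polysAt E univ v, |τ P| * ρ ^ (verts P).card) * Z τ E S' := by
                apply mul_le_mul_of_nonneg_right _ hZ'.le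
                apply Finset.sum_le_sum_of_subset_of_nonneg hsubset
                intro i _ _
                positivity
            _ ≤ (ρ - 1) * Z τ E S' := mul_le_mul_of_nonneg_right (hβ v) hZ'.le
        have habs1 : -(ρ * |X|) ≤ ρ * X := by
          have := neg_abs_le X
          nlinarith
        have habs2 : X ≤ ρ * |X| := by
          have h1 := le_abs_self X
          have h2 := abs_nonneg X
          nlinarith
        refine ⟨hZ', ?_, ?_⟩
        · rw [hrec]
          nlinarith
        · rw [hrec]
          nlinarith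
      refine ⟨?_, fun v hv => (key v hv).2⟩
      obtain ⟨h1, h2, _⟩ := key v0 hv0
      have : 0 < ρ * Z τ E S := lt_of_lt_of_le h1 h2
      exact (pos_iff_pos_of_mul_pos this).mp hρ0

/-- The telescoping lower bound for the logarithm of the partition function. -/
theorem telescoping [Fintype V] {τ : Finset (Sym2 V) → ℝ} {E : Finset (Sym2 V)}
    (hmul : IsMult τ E) (hτ0 : τ ∅ = 1) {ρ : ℝ} (hρ : 1 ≤ ρ)
    (hβ : ∀ v, ∑ P ∈ polysAt E univ v, |τ P| * ρ ^ (verts P).card ≤ ρ - 1) :
    ∃ R : Finset (Sym2 V) → ℝ,
      (∀ F ∈ polys E, 0 < R F ∧ R F ≤ (ρ ^ 2) ^ F.card ∧ 1 ≤ (ρ ^ 2) ^ F.card * R F) ∧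
      ∑ F ∈ polys E, τ F * R F ≤ Real.log (Z τ E univ) := by
  have hρ0 : 0 < ρ := by linarith
  have hall : ∀ S : Finset V, RatioAt τ E ρ S := dobrushin hmul (by rw [hτ0]; norm_num) hρ hβ
  obtain ⟨idx, n, hidxlt, hinj, hsurj⟩ : ∃ (idx : V → ℕ) (n : ℕ), (∀ u, idx u < n) ∧
      (∀ u w, idx u = idx w → u = w) ∧ (∀ i, i < n → ∃ v, idx v = i) := by
    refine ⟨fun u => (Fintype.equivFin V u).val, Fintype.card V, fun u => (Fintype.equivFin V u).isLt,
      ?_, ?_⟩
    · intro u w h
      exact (Fintype.equivFin V).injective (Fin.ext h)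
    · intro i hi
      refine ⟨(Fintype.equivFin V).symm ⟨i, hi⟩, ?_⟩
      simp
  set S : ℕ → Finset V := fun i => univ.filter (fun u => idx u < i) with hS
  have hmemS : ∀ i u, u ∈ S i ↔ idx u < i := by
    intro i u
    simp [hS]
  set last : Finset (Sym2 V) → ℕ := fun F => (verts F).sup idx with hlast
  have hnev : ∀ F ∈ polys E, (verts F).Nonempty := by
    intro F hF
    exact verts_nonempty_of_nonempty (mem_polys.mp hF).2.1
  have hvS : ∀ F ∈ polys E, verts F ⊆ S (last F + 1) := by
    intro F _ u hu
    rw [hmemS]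
    have : idx u ≤ last F := Finset.le_sup (f := idx) hu
    omega
  have hlastlt : ∀ F ∈ polys E, last F < n := by
    intro F hF
    obtain ⟨u, _, hu⟩ := Finset.exists_mem_eq_sup (verts F) (hnev F hF) idx
    rw [hlast]
    simp only
    rw [hu]
    exact hidxlt u
  set R : Finset (Sym2 V) → ℝ :=
    fun F => Z τ E (S (last F + 1) \ verts F) / Z τ E (S (last F + 1)) with hR
  refine ⟨R, ?_, ?_⟩
  · intro F hF
    have hpos1 := (hall (S (last F + 1))).1
    have hpos2 := (hall (S (last F + 1) \ verts F)).1
    obtain ⟨h1, h2⟩ := ratio_chain hρ (fun T _ => hall T) (verts F) (hvS F hF)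
    have hpw : ρ ^ (verts F).card ≤ (ρ ^ 2) ^ F.card := by
      rw [← pow_mul]
      exact pow_le_pow_right₀ hρ (card_verts_le F)
    have hpwpos : 0 < (ρ ^ 2) ^ F.card := by positivity
    refine ⟨div_pos hpos2 hpos1, ?_, ?_⟩
    · simp only [hR]
      rw [div_le_iff₀ hpos1]
      exact h1.trans (mul_le_mul_of_nonneg_right hpw hpos1.le)
    · simp only [hR]
      rw [← mul_div_assoc, le_div_iff₀ hpos1, one_mul]
      exact h2.trans (mul_le_mul_of_nonneg_right hpw hpos2.le)
  · -- the sum over fibres of `last`
    have hmaps : ∀ F ∈ polys E, last F ∈ range n := fun F hF =>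
      Finset.mem_range.mpr (hlastlt F hF)
    rw [← Finset.sum_fiberwise_of_maps_to hmaps]
    have hstep : ∀ i ∈ range n,
        ∑ F ∈ (polys E).filter (fun F => last F = i), τ F * R F
          ≤ Real.log (Z τ E (S (i + 1))) - Real.log (Z τ E (S i)) := by
      intro i hi
      have hi' : i < n := Finset.mem_range.mp hi
      obtain ⟨v, hidxv⟩ := hsurj i hi'
      have hvmem : v ∈ S (i + 1) := by
        rw [hmemS, hidxv]
        omega
      have herase : (S (i + 1)).erase v = S i := by
        ext u
        rw [mem_erase, hmemS, hmemS]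
        constructor
        · rintro ⟨h1, h2⟩
          have : idx u ≠ i := by
            intro h3
            exact h1 (hinj u v (h3.trans hidxv.symm))
          omega
        · intro h1
          refine ⟨?_, by omega⟩
          rintro rfl
          omega
      have hrec := Z_rec (S := S (i + 1)) (v := v) hmul
      rw [herase] at hrec
      have hfib : (polys E).filter (fun F => last F = i) = polysAt E (S (i + 1)) v := by
        ext F
        simp only [polysAt, mem_filter, mem_polys]
        constructor
        · rintro ⟨⟨hFE, hc⟩, hl⟩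
          have hFp : F ∈ polys E := mem_polys.mpr ⟨hFE, hc⟩
          have hsub := hvS F hFp
          rw [hl] at hsub
          refine ⟨⟨subset_inside_iff.mpr ⟨hFE, hsub⟩, hc⟩, ?_⟩
          obtain ⟨u, hu, hu2⟩ := Finset.exists_mem_eq_sup (verts F) (hnev F hFp) idx
          have : u = v := hinj u v (by rw [hidxv, ← hu2]; exact hl)
          rwa [← this]
        · rintro ⟨⟨hFS, hc⟩, hvF⟩
          refine ⟨⟨hFS.trans (inside_subset _ _), hc⟩, ?_⟩
          apply le_antisymm
          · apply Nat.le_of_lt_succ
            have hsub := verts_subset_of_inside hFS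
            rw [Finset.sup_lt_iff (by simp)]
            intro u hu
            exact (hmemS _ _).mp (hsub hu)
          · have : idx v ≤ last F := Finset.le_sup (f := idx) hvF
            omega
      rw [hfib]
      have hposi1 := (hall (S (i + 1))).1
      have hposi := (hall (S i)).1
      have hvals : ∀ F ∈ polysAt E (S (i + 1)) v,
          τ F * R F = τ F * Z τ E (S (i + 1) \ verts F) / Z τ E (S (i + 1)) := by
        intro F hF
        have hl : last F = i := by
          rw [← hfib] at hF
          exact (Finset.mem_filter.mp hF).2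
        simp only [hR, hl]
        ring
      rw [Finset.sum_congr rfl hvals, ← Finset.sum_div]
      have hdiff : ∑ F ∈ polysAt E (S (i + 1)) v, τ F * Z τ E (S (i + 1) \ verts F)
          = Z τ E (S (i + 1)) - Z τ E (S i) := by
        rw [hrec]
        ring
      rw [hdiff]
      have hlog := Real.one_sub_inv_le_log_of_pos (div_pos hposi1 hposi)
      rw [Real.log_div hposi1.ne' hposi.ne', inv_div] at hlog
      have : (Z τ E (S (i + 1)) - Z τ E (S i)) / Z τ E (S (i + 1))
          = 1 - Z τ E (S i) / Z τ E (S (i + 1)) := by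
        field_simp
      rw [this]
      exact hlog
    calc ∑ i ∈ range n, ∑ F ∈ (polys E).filter (fun F => last F = i), τ F * R F
        ≤ ∑ i ∈ range n, (Real.log (Z τ E (S (i + 1))) - Real.log (Z τ E (S i))) :=
          Finset.sum_le_sum hstep
      _ = Real.log (Z τ E (S n)) - Real.log (Z τ E (S 0)) :=
          Finset.sum_range_sub (fun i => Real.log (Z τ E (S i))) n
      _ = Real.log (Z τ E univ) := by
          have h0 : S 0 = ∅ := by
            ext u
            rw [hmemS]
            simp
          have h1 : S n = univ := by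
            ext u
            rw [hmemS]
            simp [hidxlt u]
          rw [h0, h1, Z_empty, hτ0, Real.log_one, sub_zero]

end Vale.Agent.Lib.P050
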