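import Vale.Agent.Lib.P050.Bounds

/-!
The polymer weights of a kernel satisfy the hypotheses of the abstract local theorem.
-/

open MeasureTheory Function Finset
open scoped Classical

noncomputable section

namespace Vale.Agent.Lib.P050

variable {V Ω : Type*} [MeasurableSpace Ω] (μ : Measure Ω) {U : Ω → Ω → ℝ}

/-- The edge at a leaf. -/
lemma leaf_edge [Fintype V] {F : Finset (Sym2 V)} (hloop : ∀ e ∈ F, ¬ e.IsDiag) {v : V}
    (hv : v ∈ leaves F) :
    ∃ w, s(v, w) ∈ F ∧ v ≠ w ∧ ∀ e ∈ F, v ∈ e → e = s(v, w) := by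
  have hv1 : (F.filter (fun e => v ∈ e)).card = 1 := by
    have := (Finset.mem_filter.mp hv).2
    exact this
  obtain ⟨e, he⟩ := Finset.card_eq_one.mp hv1
  have hmem : e ∈ F.filter (fun e => v ∈ e) := by
    rw [he]
    exact Finset.mem_singleton_self e
  rw [Finset.mem_filter] at hmem
  obtain ⟨heF, hve⟩ := hmem
  obtain ⟨w, rfl⟩ := hve
  refine ⟨w, heF, ?_, ?_⟩
  · intro h
    apply hloop _ heF
    simpa using h
  · intro e' he' hv'
    have : e' ∈ F.filter (fun e => v ∈ e) := Finset.mem_filter.mpr ⟨he', hv'⟩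
    rw [he] at this
    exact Finset.mem_singleton.mp this

variable [IsProbabilityMeasure μ] [Fintype V]

/-- Integrals with two leaves, from the combinatorics of the leaf edges. -/
lemma T_of_two_leaves (hU : Ker U) {F : Finset (Sym2 V)} (hloop : ∀ e ∈ F, ¬ e.IsDiag)
    (hconn : Conn F) (h3 : 3 ≤ F.card) (h2 : 2 ≤ (leaves F).card) : |T μ hU F| ≤ aa μ U := by
  obtain ⟨a, ha, b, hb, hab⟩ := Finset.one_lt_card.mp h2
  obtain ⟨a', hea, haa', huniqa⟩ := leaf_edge hloop ha
  obtain ⟨b', heb, hbb', huniqb⟩ := leaf_edge hloop hb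
  -- the two edges differ
  have hne : s(a, a') ≠ s(b, b') := by
    intro heq
    have hab2 : a = b' ∧ a' = b := by
      rcases Sym2.eq_iff.mp heq with ⟨h, _⟩ | h
      · exact absurd h hab
      · exact h
    obtain ⟨rfl, rfl⟩ := hab2
    have hA : ({s(a, a')} : Finset (Sym2 V)) ⊆ F := by simpa using hea
    have hAne : ({s(a, a')} : Finset (Sym2 V)) ≠ F := by
      intro h
      rw [← h] at h3
      simp at h3
    obtain ⟨e, he, e', he', hn, v, hve, hve'⟩ := hconn.2 _ hA (by simp) hAne
    rw [Finset.mem_singleton] at he hn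
    subst he
    simp only [Sym2.mem_iff] at hve
    rcases hve with rfl | rfl
    · exact hn (huniqa e' he' hve')
    · exact hn ((huniqb e' he' hve').trans Sym2.eq_swap)
  have hab' : b ≠ a' := by
    rintro rfl
    exact hne ((huniqb _ hea (by simp)))
  have hba' : a ≠ b' := by
    rintro rfl
    exact hne ((huniqa _ heb (by simp))).symm
  set G := (F.erase s(a, a')).erase s(b, b') with hG
  have haG : a ∉ verts G := by
    intro h
    rw [mem_verts] at h
    obtain ⟨e, he, hve⟩ := h
    simp only [hG, Finset.mem_erase] at he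
    exact he.2.1 (huniqa e he.2.2 hve)
  have hbG : b ∉ verts G := by
    intro h
    rw [mem_verts] at h
    obtain ⟨e, he, hve⟩ := h
    simp only [hG, Finset.mem_erase] at he
    exact he.1 (huniqb e he.2.2 hve)
  have hFeq : F = insert s(a, a') (insert s(b, b') G) := by
    rw [hG, Finset.insert_erase (Finset.mem_erase.mpr ⟨hne.symm, heb⟩), Finset.insert_erase hea]
  have hn1 : s(b, b') ∉ G := by simp [hG]
  have hn2 : s(a, a') ∉ insert s(b, b') G := by
    simp only [Finset.mem_insert, not_or]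
    exact ⟨hne, by simp [hG]⟩
  have hval : fP hU F = fun x => U (x a) (x a') * (U (x b) (x b') * fP hU G x) := by
    funext x
    conv_lhs => rw [hFeq]
    rw [fP_insert hU hn2, fP_insert hU hn1]
    rfl
  unfold T
  rw [hval, T_two_leaves μ hU haa' hbb' hab' hba' hab haG hbG]
  exact T_two_leaves_bound μ hU a' b' G

/-- The value on two touching edges. -/
lemma T_of_pair (hU : Ker U) {F : Finset (Sym2 V)} (hloop : ∀ e ∈ F, ¬ e.IsDiag)
    (hconn : Conn F) (h2 : F.card = 2) : T μ hU F = aa μ U := by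
  obtain ⟨e1, e2, hne, hFeq⟩ := Finset.card_eq_two.mp h2
  subst hFeq
  have h1mem : e1 ∈ ({e1, e2} : Finset (Sym2 V)) := by simp
  have h2mem : e2 ∈ ({e1, e2} : Finset (Sym2 V)) := by simp
  have hA : ({e1} : Finset (Sym2 V)) ⊆ {e1, e2} := by simp
  have hAne : ({e1} : Finset (Sym2 V)) ≠ {e1, e2} := by
    intro h
    have : e2 ∈ ({e1} : Finset (Sym2 V)) := by rw [h]; exact h2mem
    rw [Finset.mem_singleton] at this
    exact hne this.symm
  obtain ⟨e, he, e', he', hn, z, hze, hze'⟩ := hconn.2 _ hA (by simp) hAne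
  rw [Finset.mem_singleton] at he hn
  subst he
  have he'2 : e' = e2 := by
    simp only [Finset.mem_insert, Finset.mem_singleton] at he'
    rcases he' with h | h
    · exact absurd h hn
    · exact h
  subst he'2
  obtain ⟨p, rfl⟩ := hze
  obtain ⟨q, rfl⟩ := hze'
  have hpz : p ≠ z := by
    rintro rfl
    exact hloop _ h1mem (by simp)
  have hqz : q ≠ z := by
    rintro rfl
    exact hloop _ h2mem (by simp)
  have hpq : p ≠ q := by
    rintro rfl
    exact hne rfl
  have hval : fP hU ({s(z, p), s(z, q)} : Finset (Sym2 V))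
      = fun x => U (x p) (x z) * (U (x q) (x z) * fP hU (∅ : Finset (Sym2 V)) x) := by
    funext x
    rw [fP_insert hU (by simpa using hne)]
    have : ({s(z, q)} : Finset (Sym2 V)) = insert s(z, q) ∅ := by simp
    rw [this, fP_insert hU (by simp)]
    simp only [ev_mk]
    rw [hU.symm (x z) (x p), hU.symm (x z) (x q)]
  have hemp : ∀ v : V, v ∉ verts (∅ : Finset (Sym2 V)) := by
    intro v
    simp [verts]
  unfold T
  rw [hval, T_two_leaves μ hU hpz hqz hqz hpz hpq (hemp p) (hemp q)]
  have h3 : (fun x : V → Ω => dd μ U (x z) * (dd μ U (x z) * fP hU (∅ : Finset (Sym2 V)) x))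
      = fun x => dd μ U (x z) ^ 2 := by
    funext x
    simp [fP]
    ring
  rw [h3]
  have hw := dd_wt μ hU
  exact total_coord μ (hw.meas.pow_const 2) (C := 1) (fun y => by
    have := hw.bdd y
    rw [abs_pow]
    nlinarith [abs_nonneg (dd μ U y)]) z

/-- The value on a shortest even set which is everything. -/
lemma T_of_circuit (hU : Ker U) {F : Finset (Sym2 V)} (hloop : ∀ e ∈ F, ¬ e.IsDiag)
    (hF : IsShortest F F) (hev : Even F.card) : T μ hU F = bb μ U F.card := by
  obtain ⟨c, l, hnd, hl, hCeq⟩ := shortest_is_cycle hloop hF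
  have hcard : F.card = l.length + 1 := by
    rw [← hCeq, card_cycEdges hnd hl]
    rfl
  obtain ⟨k, hk⟩ := hev
  have hk1 : 1 ≤ k := by omega
  have h2k : l.length + 1 = 2 * k := by omega
  unfold bb
  rw [← hCeq, T_cycle μ hU hnd hl, hCeq, hcard, h2k, abs_of_nonneg (cyc_even_nonneg μ hU hk1)]

/-- The bound for a leafless set with a proper shortest even set. -/
lemma T_of_shortest (hU : Ker U) {C F : Finset (Sym2 V)} (hloop : ∀ e ∈ F, ¬ e.IsDiag)
    (hC : IsShortest C F) (hev : Even C.card) : |T μ hU F| ≤ bb μ U C.card := by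
  have h := T_shortest_bound μ hU hloop hC hev (Ψ := fun _ => 1) (splits_one _) (BM.const 1)
  simpa [T] using h

/-- The estimate with one leaf. -/
lemma T_of_one_leaf (hU : Ker U) {C F : Finset (Sym2 V)} (hloop : ∀ e ∈ F, ¬ e.IsDiag)
    (hl : (leaves F).card = 1) (hC : IsShortest C F) (hev : Even C.card) :
    (T μ hU F) ^ 2 ≤ aa μ U * bb μ U C.card := by
  obtain ⟨u, hu⟩ := Finset.card_eq_one.mp hl
  have humem : u ∈ leaves F := by
    rw [hu]
    exact Finset.mem_singleton_self u
  obtain ⟨w, he, huw, huniq⟩ := leaf_edge hloop humem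
  set G := F.erase s(u, w) with hG
  have huG : u ∉ verts G := by
    intro h
    rw [mem_verts] at h
    obtain ⟨e, heG, hve⟩ := h
    rw [hG, Finset.mem_erase] at heG
    exact heG.1 (huniq e heG.2 hve)
  have heC : s(u, w) ∉ C := by
    intro hmem
    have h1 : deg C u ≤ deg F u := deg_le_of_subset hC.1 u
    have h2 : deg F u = 1 := (Finset.mem_filter.mp humem).2
    have h3 : 0 < deg C u := deg_pos_iff.mpr (mem_verts.mpr ⟨_, hmem, by simp⟩)
    have h4 := hC.2.2.1 u
    have h5 : deg C u = 1 := by omega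
    rw [h5] at h4
    exact absurd h4 (by decide)
  have hCG : IsShortest C G := by
    refine ⟨?_, hC.2.1, hC.2.2.1, ?_⟩
    · intro e he'
      rw [hG, Finset.mem_erase]
      refine ⟨?_, hC.1 he'⟩
      rintro rfl
      exact heC he'
    · intro X hX hne hXe
      exact hC.2.2.2 X (hX.trans (Finset.erase_subset _ _)) hne hXe
  have hloopG : ∀ e ∈ G, ¬ e.IsDiag := fun e he' => hloop e (Finset.mem_of_mem_erase he')
  have hGbm := fP_bm (V := V) hU G
  have hval : fP hU F = fun x => U (x u) (x w) * fP hU G x := by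
    funext x
    have : F = insert s(u, w) G := (Finset.insert_erase he).symm
    conv_lhs => rw [this]
    rw [fP_insert hU (by simp [hG])]
    rfl
  have hdw := dd_wt μ hU
  have hT : T μ hU F = total μ (fun x => dd μ U (x w) * fP hU G x) := by
    unfold T
    rw [hval]
    exact leaf_out μ hU huw hGbm (fP_indep hU huG)
  -- the pinned function
  let x0 : V → Ω := fun _ => Classical.choice (nonempty_of_isProbabilityMeasure μ)
  set rest := (allV V).erase w with hrest
  have hrestw : ∀ v ∈ rest, v ≠ w := by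
    intro v hv
    exact ((allV_nodup (V := V)).mem_erase_iff.mp hv).1
  set Ψ : Ω → ℝ := fun y => iter μ rest (fP hU G) (update x0 w y) with hΨ
  have hΨwt : Wt Ψ :=
    ⟨(hGbm.iter μ rest).meas.comp (measurable_update x0),
      fun y => iter_abs_le μ (fP_abs_le hU G) rest _⟩
  have hpin : ∀ h : Ω → ℝ, Wt h →
      total μ (fun z => h (z w) * fP hU G z) = ∫ y, h y * Ψ y ∂μ := by
    intro h hh
    have hBM : BM (fun z : V → Ω => h (z w) * fP hU G z) :=
      BM.mul ⟨hh.meas.comp (measurable_pi_apply w), 1, fun x => hh.bdd _⟩ hGbm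
    rw [← iter_all_eq μ hBM x0, iter_perm μ hBM (List.perm_cons_erase (mem_allV w)), iter_cons]
    congr 1
    funext y
    rw [iter_mul_left μ (g := fun z : V → Ω => h (z w))]
    · simp only [update_self]
      rfl
    · intro v hv x a
      simp only
      rw [update_of_ne (hrestw v hv).symm]
  have h1 : T μ hU F = ∫ y, dd μ U y * Ψ y ∂μ := by
    rw [hT]
    exact hpin _ hdw
  have h2 : ∫ y, Ψ y ^ 2 ∂μ = total μ (fun z => Ψ (z w) * fP hU G z) := by
    rw [hpin Ψ hΨwt]
    congr 1
    funext y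
    ring
  have h3 : ∫ y, Ψ y ^ 2 ∂μ ≤ bb μ U C.card := by
    rw [h2]
    have hsp : Splits (verts C) (fun z : V → Ω => Ψ (z w)) := splits_coord _ hΨwt w
    have hbm : BM (fun z : V → Ω => Ψ (z w)) :=
      ⟨hΨwt.meas.comp (measurable_pi_apply w), 1, fun x => hΨwt.bdd _⟩
    exact (le_abs_self _).trans (T_shortest_bound μ hU hloopG hCG hev hsp hbm)
  have hcs := cs_real (ν := μ) hdw.meas hΨwt.meas hdw.bdd hΨwt.bdd
  rw [← h1] at hcs
  calc (T μ hU F) ^ 2 ≤ (∫ y, dd μ U y ^ 2 ∂μ) * ∫ y, Ψ y ^ 2 ∂μ := hcs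
    _ ≤ aa μ U * bb μ U C.card := mul_le_mul_of_nonneg_left h3 (aa_nonneg μ)

/-- The polymer weights. -/
def tau (hU : Ker U) (ε : ℝ) (F : Finset (Sym2 V)) : ℝ := ε ^ F.card * T μ hU F

/-- All the hypotheses of the abstract theorem hold. -/
theorem tauHyp (hU : Ker U) (hzero : ∫ y, ∫ z, U y z ∂μ ∂μ = 0) {E : Finset (Sym2 V)}
    (hloop : ∀ e ∈ E, ¬ e.IsDiag) (heven : ∀ X, X ⊆ E → IsEvenSet X → Even X.card)
    {ε : ℝ} (hε : 0 < ε) : TauHyp E (tau μ hU ε) ε (aa μ U) (bb μ U) where
  ha := aa_nonneg μ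
  hb := bb_nonneg μ
  mul := by
    intro F G _ _ hd
    have hedges : Disjoint F G := disjoint_edges_of_disjoint_verts hd
    unfold tau
    rw [T_mul μ hU hd, Finset.card_union_of_disjoint hedges, pow_add]
    ring
  empty := by
    unfold tau
    rw [T_empty]
    simp
  bound := by
    intro F _
    unfold tau
    rw [abs_mul, abs_of_pos (pow_pos hε _)]
    calc ε ^ F.card * |T μ hU F| ≤ ε ^ F.card * 1 :=
          mul_le_mul_of_nonneg_left (T_abs_le μ hU F) (by positivity)
      _ = _ := mul_one _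
  single := by
    intro e he
    unfold tau
    rw [T_single μ hU hzero (hloop e he), mul_zero]
  cherry := by
    intro F hF h2
    have hF' := mem_polys.mp hF
    unfold tau
    rw [h2, T_of_pair μ hU (fun e he => hloop e (hF'.1 he)) hF'.2 h2]
  l2 := by
    intro F hF h3 h2
    have hF' := mem_polys.mp hF
    unfold tau
    rw [abs_mul, abs_of_pos (pow_pos hε _)]
    exact mul_le_mul_of_nonneg_left (T_of_two_leaves μ hU (fun e he => hloop e (hF'.1 he)) hF'.2 h3 h2)
      (by positivity)
  circ := by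
    intro F hF hs
    have hF' := mem_polys.mp hF
    unfold tau
    rw [T_of_circuit μ hU (fun e he => hloop e (hF'.1 he)) hs (heven F hF'.1 hs.2.2.1)]
  l0 := by
    intro F hF _ C hC _
    have hF' := mem_polys.mp hF
    unfold tau
    rw [abs_mul, abs_of_pos (pow_pos hε _)]
    exact mul_le_mul_of_nonneg_left
      (T_of_shortest μ hU (fun e he => hloop e (hF'.1 he)) hC (heven C (hC.1.trans hF'.1) hC.2.2.1))
      (by positivity)
  l1 := by
    intro F hF hl C hC
    have hF' := mem_polys.mp hF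
    unfold tau
    have := T_of_one_leaf μ hU (fun e he => hloop e (hF'.1 he)) hl hC
      (heven C (hC.1.trans hF'.1) hC.2.2.1)
    calc (ε ^ F.card * T μ hU F) ^ 2 = ε ^ (2 * F.card) * (T μ hU F) ^ 2 := by
          rw [mul_pow, ← pow_mul, mul_comm F.card 2]
      _ ≤ ε ^ (2 * F.card) * (aa μ U * bb μ U C.card) :=
          mul_le_mul_of_nonneg_left this (by positivity)
      _ = _ := by ring

/-- The partition function is the integral of the product. -/
lemma Z_tau_eq (hU : Ker U) (E : Finset (Sym2 V)) (ε : ℝ) :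
    Z (tau μ hU ε) E univ = total μ (fun x => ∏ e ∈ E, (1 + ε * ev hU e x)) := by
  unfold Z
  rw [inside_univ]
  have h1 : (fun x : V → Ω => ∏ e ∈ E, (1 + ε * ev hU e x))
      = fun x => ∑ F ∈ E.powerset, ε ^ F.card * fP hU F x := by
    funext x
    rw [Finset.prod_one_add]
    apply Finset.sum_congr rfl
    intro F _
    rw [Finset.prod_mul_distrib, Finset.prod_const]
    rfl
  rw [h1, total_sum]
  · apply Finset.sum_congr rfl
    intro F _
    unfold tau T
    rw [total_const_mul]
  · intro F _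
    exact (BM.const _).mul (fP_bm hU F)

/-- The local theorem for a bounded perturbation of the constant kernel. -/
theorem main_U (hU : Ker U) (hzero : ∫ y, ∫ z, U y z ∂μ ∂μ = 0) {E : Finset (Sym2 V)}
    (hloop : ∀ e ∈ E, ¬ e.IsDiag) (heven : ∀ X, X ⊆ E → IsEvenSet X → Even X.card)
    {Δ : ℕ} (hΔ : 1 ≤ Δ) (hdeg : ∀ v, deg E v ≤ Δ) :
    1 ≤ total μ (fun x => ∏ e ∈ E, (1 + (1 / (60 * (Δ : ℝ))) * ev hU e x)) := by
  have hΔr : (1:ℝ) ≤ Δ := by exact_mod_cast hΔ
  have hε : (0:ℝ) < 1 / (60 * (Δ : ℝ)) := by positivity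
  rw [← Z_tau_eq]
  exact abstract_main hΔ (tauHyp μ hU hzero hloop heven hε) hloop heven hdeg

end Vale.Agent.Lib.P050
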